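import Vale.Agent.P331.Defs

/-!
# One-sample matroid prophet inequality against exchange-symmetric adversaries: definitions
-/

namespace Vale.Agent.P331.Osel

open MeasureTheory Vale.Agent.P331
open scoped ENNReal NNReal

variable {E : Type*}

/-- The vector which takes the entries of `a` at the elements of `c` and those of `b` elsewhere. -/
def mix (c : E → Bool) (a b : E → ℝ≥0) (e : E) : ℝ≥0 := if c e then a e else b e

/-- The order `π` (a function of the seed, the sample and the values) does not change when the
sample value and the value of some of the elements are exchanged: it may depend on the seed and on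
the unordered pairs `{S_e, V_e}`, but not on which of the two numbers is the sample. -/
def ExchangeSymmetric {Seed : Type*} (π : Seed × (E → ℝ≥0) × (E → ℝ≥0) → Order E) : Prop :=
  ∀ (r : Seed) (s v : E → ℝ≥0) (c : E → Bool), π (r, mix c s v, mix c v s) = π (r, s, v)

/-- `R` is `c`-competitive against the exchange-symmetric adversary: for all laws `D` with finite
expected optimum and every measurable exchange-symmetric arrival order. -/
def IsSymCompetitive [Fintype E] {M : Matroid E} (R : OnlineRule M) (c : ℝ≥0∞) : Prop :=
  ∀ D : E → Measure ℝ≥0, (∀ e, IsProbabilityMeasure (D e)) →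
    (∫⁻ v, opt M v ∂(Measure.pi D)) < ∞ →
    ∀ π : R.Seed × (E → ℝ≥0) × (E → ℝ≥0) → Order E, (∀ o, MeasurableSet (π ⁻¹' {o})) →
      ExchangeSymmetric π →
      c * ∫⁻ v, opt M v ∂(Measure.pi D) ≤
        ∫⁻ ω, R.gain ω.1 ω.2.1 ω.2.2 (π ω)
          ∂(R.law.prod ((Measure.pi D).prod (Measure.pi D)))

end Vale.Agent.P331.Osel
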