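import Vale.Agent.P331.Defs

/-!
# The matroid secretary problem: definitions
-/

namespace Vale.Agent.P331

open scoped ENNReal NNReal Classical

variable {E : Type*}

/-- There are finitely many arrival orders. -/
noncomputable instance Order.instFintype [Fintype E] : Fintype (Order E) :=
  Fintype.ofInjective (fun o : Order E => (⟨o.1, o.2.1⟩ : {l : List E // l.Nodup}))
    fun _ _ h => Subtype.ext (Subtype.mk.inj h)

/-- A rule for the matroid secretary problem on the (known) matroid `M`, with a seed which is
uniformly distributed on a finite set: `accept r h x` says whether the arrival `x` (an element with
its weight) is accepted for the seed `r` when it comes right after the history `h`. The rule gets no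
other information: no sample, no information on the weights of the elements that have not arrived,
and it is not told the future order. -/
structure SecretaryRule (M : Matroid E) where
  Seed : Type
  [seedFintype : Fintype Seed]
  [seedNonempty : Nonempty Seed]
  accept : Seed → List (E × ℝ≥0) → E × ℝ≥0 → Prop
  feasible : ∀ (r : Seed) (h : List (E × ℝ≥0)), (h.map Prod.fst).Nodup →
    M.Indep (accepted (accept r) h : Set E)

attribute [instance] SecretaryRule.seedFintype SecretaryRule.seedNonempty

/-- The total weight accepted for the seed `r`, the weights `w` and the arrival order `o`. -/
noncomputable def SecretaryRule.gain {M : Matroid E} (R : SecretaryRule M)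
    (r : R.Seed) (w : E → ℝ≥0) (o : Order E) : ℝ≥0∞ :=
  ∑ e ∈ accepted (R.accept r) (history w o), (w e : ℝ≥0∞)

/-- `R` is `c`-competitive for the matroid secretary problem: for all fixed weights `w` (unknown to
the rule), the average of the total accepted weight over all seeds and all arrival orders (that is,
its expectation for an independent uniformly random seed and a uniformly random order) is at least
`c` times the largest weight of an independent set. -/
def SecretaryRule.IsCompetitive [Fintype E] {M : Matroid E} (R : SecretaryRule M)
    (c : ℝ≥0∞) : Prop :=
  ∀ w : E → ℝ≥0, c * opt M w ≤
    (∑ r : R.Seed, ∑ o : Order E, R.gain r w o) /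
      (Fintype.card R.Seed * Fintype.card (Order E))

end Vale.Agent.P331
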