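import Vale.Agent.P331.Osel.Path

/-!
# One-sample matroid prophet inequality, exchange-symmetric orders: conditional coin flips
-/

namespace Vale.Agent.P331.Osel

open Set Vale.Agent.P331
open scoped NNReal ENNReal Classical

set_option linter.all false

variable {E : Type*} [Fintype E]

/-- Flip the coin of `e`. -/
noncomputable def flip (e : E) (c : E → Bool) : E → Bool := Function.update c e (!c e)

theorem flip_flip (e : E) (c : E → Bool) : flip e (flip e c) = c := by
  unfold flip
  funext f
  by_cases h : f = e
  · subst h; simp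
  · simp [h]

theorem sel_flip_ne {e f : E} (h : f ≠ e) (c : E → Bool) (x y : E → ℝ≥0) :
    sel (flip e c) x y f = sel c x y f := by
  unfold sel flip
  rw [Function.update_of_ne h]

theorem sel_flip_self (e : E) (c : E → Bool) (x y : E → ℝ≥0) :
    sel (flip e c) x y e = sel c y x e := by
  unfold sel flip
  rw [Function.update_self]
  cases c e <;> simp

theorem sel_flip (e : E) (c : E → Bool) (x y : E → ℝ≥0) :
    sel (flip e c) x y = Function.update (sel c x y) e (sel c y x e) := by
  funext f
  by_cases h : f = e
  · subst h; rw [sel_flip_self]; simp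
  · rw [sel_flip_ne h, Function.update_of_ne h]

theorem sum_invol {A : Type*} [AddCommMonoid A] (Φ : (E → Bool) → E → Bool)
    (h1 : ∀ c, Φ (Φ c) = c) (G : (E → Bool) → A) : ∑ c, G (Φ c) = ∑ c, G c :=
  Equiv.sum_comp (Function.Involutive.toPerm Φ h1) G

theorem sum_flip {A : Type*} [AddCommMonoid A] (e : E) (G : (E → Bool) → A) :
    ∑ c, G (flip e c) = ∑ c, G c := sum_invol (flip e) (flip_flip e) G

theorem HV_congr_self {z : E} {v : ℝ≥0} {s : E → ℝ≥0} {a : ℝ≥0} :
    HV z v (Function.update s z a) = HV z v s := by
  ext x
  constructor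
  · rintro ⟨h1, h2⟩
    rw [Function.update_of_ne h1] at h2
    exact ⟨h1, h2⟩
  · rintro ⟨h1, h2⟩
    refine ⟨h1, ?_⟩
    rwa [Function.update_of_ne h1]

variable (M : Matroid E) (act : E → Prop) (x y : E → ℝ≥0) (z : E)

/-- The condition for the conditional flip of `e`, in the process of `z`. -/
def cnd (e : E) (c : E → Bool) : Prop :=
  act e ∧ e ≠ z ∧ z ∉ M.closure (insert e (HV z (sel c y x z) (sel c x y)))

/-- The conditional flip of `e`. -/
noncomputable def TT (e : E) (c : E → Bool) : E → Bool := if cnd M act x y z e c then flip e c else c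

/-- The composition of the conditional flips along a list (most recent first). -/
noncomputable def FF : List E → (E → Bool) → E → Bool
  | [], c => c
  | e :: l, c => TT M act x y z e (FF l c)

variable {M act x y z}

theorem cnd_flip (e : E) (c : E → Bool) :
    cnd M act x y z e (flip e c) ↔ cnd M act x y z e c := by
  unfold cnd
  refine and_congr_right fun _ => and_congr_right fun h => ?_
  rw [sel_flip_ne (Ne.symm h), sel_flip, insert_HV_update]

theorem TT_TT (e : E) (c : E → Bool) : TT M act x y z e (TT M act x y z e c) = c := by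
  by_cases h : cnd M act x y z e c
  · have h1 : TT M act x y z e c = flip e c := if_pos h
    rw [h1, TT, if_pos ((cnd_flip e c).2 h), flip_flip]
  · have h1 : TT M act x y z e c = c := if_neg h
    rw [h1, h1]

theorem sum_FF {A : Type*} [AddCommMonoid A] (l : List E) (G : (E → Bool) → A) :
    ∑ c, G (FF M act x y z l c) = ∑ c, G c := by
  induction l generalizing G with
  | nil => rfl
  | cons e l ih =>
    have h1 := ih (fun c => G (TT M act x y z e c))
    rw [sum_invol (TT M act x y z e) (TT_TT e) G] at h1
    exact h1

theorem sel_TT_ne {e f : E} (h : f ≠ e) (c : E → Bool) (a b : E → ℝ≥0) :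
    sel (TT M act x y z e c) a b f = sel c a b f := by
  unfold TT
  split_ifs with hc
  · exact sel_flip_ne h c a b
  · rfl

theorem sel_TT_z (e : E) (c : E → Bool) (a b : E → ℝ≥0) :
    sel (TT M act x y z e c) a b z = sel c a b z := by
  unfold TT
  split_ifs with hc
  · exact sel_flip_ne (Ne.symm hc.2.1) c a b
  · rfl

theorem sel_FF_z (l : List E) (c : E → Bool) (a b : E → ℝ≥0) :
    sel (FF M act x y z l c) a b z = sel c a b z := by
  induction l with
  | nil => rfl
  | cons e l ih => rw [FF, sel_TT_z, ih]

theorem sel_FF_of_notMem {l : List E} {e : E} (he : e ∉ l) (c : E → Bool) (a b : E → ℝ≥0) :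
    sel (FF M act x y z l c) a b e = sel c a b e := by
  induction l with
  | nil => rfl
  | cons f l ih =>
    have h1 : e ≠ f := fun h => he (h ▸ List.mem_cons_self)
    rw [FF, sel_TT_ne h1, ih fun h => he (List.mem_cons_of_mem _ h)]

/-- The virtual sample is the sample of the flipped coins. -/
theorem sg_eq {l : List E} (hnd : l.Nodup) (c : E → Bool) :
    sg M act z (sel c y x z) (sel c x y) (hs (sel c y x) l) = sel (FF M act x y z l c) x y := by
  induction l with
  | nil => rfl
  | cons e l ih =>
    have hnd' := List.nodup_cons.1 hnd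
    change sg M act z (sel c y x z) (sel c x y) ((e, sel c y x e) :: hs (sel c y x) l) = _
    rw [sg, ih hnd'.2, FF]
    unfold TT cnd
    rw [sel_FF_z]
    split_ifs with h
    · rw [sel_flip, sel_FF_of_notMem hnd'.1]
    · rfl

end Vale.Agent.P331.Osel
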