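import Vale.Agent.P331.Osel.Coins

/-!
# One-sample matroid prophet inequality, exchange-symmetric orders: the core inequality
-/

namespace Vale.Agent.P331.Osel

open Set Vale.Agent.P331
open scoped NNReal ENNReal Classical

set_option linter.all false

variable {E : Type*} [Fintype E]

section exchange

variable {M : Matroid E}

/-- `z` is knocked out of the greedy basis for the sample `s` if `y` gets the value `b`. -/
def JS (M : Matroid E) (s : E → ℝ≥0) (b : ℝ≥0) (z y : E) : Prop :=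
  y ≠ z ∧ z ∉ M.closure (HV z (s z) s) ∧ kp z (s z) < kp y b ∧
    z ∈ M.closure (insert y (HV z (s z) s))

theorem JS_unique_aux (hM : M.E = univ) {s : E → ℝ≥0} {b : ℝ≥0} {y z z' : E}
    (h : JS M s b z y) (h' : JS M s b z' y) (hlt : kp z' (s z') < kp z (s z)) : False := by
  have hne : z ≠ z' := by rintro rfl; exact lt_irrefl _ hlt
  have h1 : insert z (HV z (s z) s) ⊆ HV z' (s z') s := by
    rintro w (rfl | ⟨hw1, hw2⟩)
    · exact ⟨hne, hlt⟩
    · refine ⟨?_, hlt.trans hw2⟩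
      rintro rfl
      exact lt_irrefl _ (hlt.trans hw2)
  have h2 := M.closure_exchange ⟨h.2.2.2, h.2.1⟩
  have h3 : y ∈ M.closure (HV z' (s z') s) := M.closure_subset_closure h1 h2.1
  have h4 : insert y (HV z' (s z') s) ⊆ M.closure (HV z' (s z') s) :=
    insert_subset h3 (subset_cl hM _)
  exact h'.2.1 (cl_mono_cl h4 h'.2.2.2)

theorem JS_unique (hM : M.E = univ) {s : E → ℝ≥0} {b : ℝ≥0} {y z z' : E}
    (h : JS M s b z y) (h' : JS M s b z' y) : z = z' := by
  rcases lt_trichotomy (kp z' (s z')) (kp z (s z)) with hlt | heq | hlt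
  · exact (JS_unique_aux hM h h' hlt).elim
  · exact (kp_inj heq).symm
  · exact (JS_unique_aux hM h' h hlt).elim

theorem fresh_of_JS (hM : M.E = univ) {s : E → ℝ≥0} {b : ℝ≥0} {y z : E} (h : JS M s b z y) :
    fresh M y b s := by
  intro hy
  have h1 : HV y b s ⊆ HV z (s z) s := by
    rintro w ⟨hw1, hw2⟩
    refine ⟨?_, h.2.2.1.trans hw2⟩
    rintro rfl
    exact lt_irrefl _ (h.2.2.1.trans hw2)
  have h3 : y ∈ M.closure (HV z (s z) s) := M.closure_subset_closure h1 hy
  have h4 : insert y (HV z (s z) s) ⊆ M.closure (HV z (s z) s) :=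
    insert_subset h3 (subset_cl hM _)
  exact h.2.1 (cl_mono_cl h4 h.2.2.2)

theorem sum_JS_le (hM : M.E = univ) (s : E → ℝ≥0) (b : ℝ≥0) (y : E) :
    ∑ z, ie (JS M s b z y) (b : ℝ≥0∞) ≤ ie (fresh M y b s) b := by
  by_cases hex : ∃ z, JS M s b z y
  · obtain ⟨z, hz⟩ := hex
    rw [Finset.sum_eq_single z]
    · exact ie_mono (fun h => fresh_of_JS hM h) fun _ => le_rfl
    · intro w _ hw
      exact ie_neg (fun h => hw (JS_unique hM h hz)) _
    · intro h; exact absurd (Finset.mem_univ z) h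
  · refine le_trans (le_of_eq (Finset.sum_eq_zero fun z _ => ie_neg (fun h => hex ⟨z, h⟩) _)) ?_
    exact zero_le

/-- The value of the greedy basis. -/
noncomputable def Gv (M : Matroid E) (s : E → ℝ≥0) : ℝ≥0∞ := ∑ e, ie (fresh M e (s e) s) (s e)

theorem opt_le_Gv (hM : M.E = univ) (s : E → ℝ≥0) : opt M s ≤ Gv M s := by
  unfold opt
  refine iSup_le fun I => iSup_le fun hI => ?_
  have h1 := sum_le_greedy hM (key s) (v := s) (fun e f h => le_of_key_lt h) I
    (Finset.univ.filter fun e => fresh M e (s e) s) hI (fun g hg => by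
      refine Finset.mem_filter.2 ⟨Finset.mem_univ _, fun hcl => hg ?_⟩
      refine M.closure_subset_closure ?_ hcl
      rintro w ⟨_, hw⟩
      exact hw)
  refine h1.trans (le_of_eq ?_)
  unfold Gv
  rw [← Finset.sum_subset (Finset.filter_subset (fun e => fresh M e (s e) s) Finset.univ)
    (fun e _ he => ie_neg (fun h => he (Finset.mem_filter.2 ⟨Finset.mem_univ _, h⟩))
      (s e : ℝ≥0∞))]
  exact Finset.sum_congr rfl fun e he => (ie_pos (Finset.mem_filter.1 he).2 _).symm

theorem Gv_ne_top (s : E → ℝ≥0) : Gv M s ≠ ∞ := by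
  unfold Gv
  refine (ENNReal.sum_lt_top.2 fun e _ => ?_).ne
  unfold ie
  split_ifs
  · exact ENNReal.coe_lt_top
  · exact ENNReal.zero_lt_top

end exchange

section coins

variable {M : Matroid E} (x y : E → ℝ≥0)

/-- `z` rejects `w` at the beginning. -/
def JC (M : Matroid E) (x y : E → ℝ≥0) (z w : E) (c : E → Bool) : Prop :=
  w ≠ z ∧ fresh M z (sel c y x z) (sel c x y) ∧ kp z (sel c y x z) < kp w (sel c y x w) ∧
    z ∈ M.closure (insert w (HV z (sel c y x z) (sel c x y)))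

/-- Stationarity. -/
theorem sum_RR_le (act : E → Prop) {l : List E} (hnd : l.Nodup) (z w : E) :
    ∑ c, ie (RR M act (sel c x y) (sel c y x) l z w) (sel c y x w : ℝ≥0∞) ≤
      ∑ c, ie (act z ∧ act w ∧ JC M x y z w c) (sel c y x w : ℝ≥0∞) := by
  rw [← sum_FF (M := M) (act := act) (x := x) (y := y) (z := z) (bef l w)
    (fun c => ie (act z ∧ act w ∧ JC M x y z w c) (sel c y x w : ℝ≥0∞))]
  refine Finset.sum_le_sum fun c _ => ?_
  have hw : w ∉ bef l w := notMem_bef hnd w
  have h1 := sg_eq (M := M) (act := act) (x := x) (y := y) (z := z) (bef_nodup hnd w) c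
  refine ie_mono ?_ ?_
  · rintro ⟨ha, hf, hr⟩
    refine ⟨ha, hr.1, hr.2.1, ?_, ?_, ?_⟩
    · unfold fresh
      rw [sel_FF_z, ← h1]
      exact fresh_sg hf _
    · rw [sel_FF_z, sel_FF_of_notMem hw]
      exact hr.2.2.1
    · rw [sel_FF_z, ← h1]
      exact hr.2.2.2
  · intro _
    rw [sel_FF_of_notMem hw]

theorem fresh_flip (z : E) (a : ℝ≥0) (c : E → Bool) :
    fresh M z a (sel (flip z c) x y) ↔ fresh M z a (sel c x y) := by
  unfold fresh
  rw [sel_flip, HV_congr_self]

/-- Flipping the coin of `z`. -/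
theorem sum_JC_eq (z w : E) :
    ∑ c, ie (JC M x y z w c) (sel c y x w : ℝ≥0∞) =
      ∑ c, ie (JS M (sel c x y) (sel c y x w) z w) (sel c y x w : ℝ≥0∞) := by
  rw [← sum_flip z]
  refine Finset.sum_congr rfl fun c _ => ?_
  by_cases hwz : w = z
  · rw [ie_neg (fun h => h.1 hwz), ie_neg (fun h => h.1 hwz)]
  · refine ie_congr ?_ ?_
    · unfold JC JS
      rw [sel_flip_self, fresh_flip, sel_flip_ne hwz, sel_flip, HV_congr_self]
      rfl
    · intro _
      rw [sel_flip_ne hwz]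

/-- Flipping the coin of `w`. -/
theorem sum_fresh_eq (w : E) :
    ∑ c, ie (fresh M w (sel c y x w) (sel c x y)) (sel c y x w : ℝ≥0∞) =
      ∑ c, ie (fresh M w (sel c x y w) (sel c x y)) (sel c x y w : ℝ≥0∞) := by
  rw [← sum_flip w]
  refine Finset.sum_congr rfl fun c _ => ?_
  rw [sel_flip_self, fresh_flip]

end coins

section labels

theorem two_mul_sum_label (e : E) (Q : (E → Bool) → Prop) (hQ : ∀ r, Q (flip e r) ↔ Q r)
    (a : ℝ≥0∞) : 2 * ∑ r : E → Bool, ie (r e = true ∧ Q r) a = ∑ r : E → Bool, ie (Q r) a := by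
  have h1 : ∑ r : E → Bool, ie (r e = true ∧ Q r) a = ∑ r : E → Bool, ie (r e = false ∧ Q r) a := by
    rw [← sum_flip e]
    refine Finset.sum_congr rfl fun r _ => ?_
    refine ie_congr ?_ fun _ => rfl
    rw [hQ]
    unfold flip
    rw [Function.update_self]
    cases r e <;> simp
  rw [two_mul]
  nth_rewrite 2 [h1]
  rw [← Finset.sum_add_distrib]
  refine Finset.sum_congr rfl fun r _ => ?_
  by_cases h : Q r
  · rw [ie_pos h]
    cases hr : r e
    · rw [ie_neg (by simp [hr]), ie_pos ⟨rfl, h⟩, zero_add]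
    · rw [ie_pos ⟨rfl, h⟩, ie_neg (by simp [hr]), add_zero]
  · rw [ie_neg h, ie_neg fun h' => h h'.2, ie_neg fun h' => h h'.2, add_zero]

theorem sum_label_const (Q : Prop) (a : ℝ≥0∞) :
    ∑ _r : E → Bool, ie Q a = Fintype.card (E → Bool) * ie Q a := by
  rw [Finset.sum_const, nsmul_eq_mul, Finset.card_univ]

end labels

variable {M : Matroid E}

theorem sum3 {α β γ : Type*} [Fintype α] [Fintype β] [Fintype γ] (f : α → β → γ → ℝ≥0∞) :
    ∑ a, ∑ b, ∑ c, f a b c = ∑ c, ∑ a, ∑ b, f a b c := by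
  calc ∑ a, ∑ b, ∑ c, f a b c = ∑ a, ∑ c, ∑ b, f a b c :=
        Finset.sum_congr rfl fun a _ => Finset.sum_comm
    _ = ∑ c, ∑ a, ∑ b, f a b c := Finset.sum_comm

theorem sum4 {α β γ : Type*} [Fintype α] [Fintype β] [Fintype γ] (f : α → β → γ → γ → ℝ≥0∞) :
    ∑ a, ∑ b, ∑ z, ∑ w, f a b z w = ∑ z, ∑ w, ∑ a, ∑ b, f a b z w := by
  rw [sum3 (fun a b z => ∑ w, f a b z w)]
  exact Finset.sum_congr rfl fun z _ => sum3 (fun a b w => f a b z w)

/-- The main term. -/
theorem main_term (x y : E → ℝ≥0) :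
    2 * ∑ r : E → Bool, ∑ c : E → Bool,
        ∑ e, ie (r e = true ∧ fresh M e (sel c y x e) (sel c x y)) (sel c y x e : ℝ≥0∞) =
      Fintype.card (E → Bool) * ∑ c : E → Bool, Gv M (sel c x y) := by
  have h1 : ∀ e : E, 2 * ∑ r : E → Bool, ∑ c : E → Bool,
      ie (r e = true ∧ fresh M e (sel c y x e) (sel c x y)) (sel c y x e : ℝ≥0∞) =
      Fintype.card (E → Bool) *
        ∑ c, ie (fresh M e (sel c x y e) (sel c x y)) (sel c x y e : ℝ≥0∞) := by
    intro e
    rw [Finset.sum_comm, Finset.mul_sum, ← sum_fresh_eq, Finset.mul_sum]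
    refine Finset.sum_congr rfl fun c _ => ?_
    rw [two_mul_sum_label e (fun _ => fresh M e (sel c y x e) (sel c x y)) (fun _ => Iff.rfl),
      sum_label_const]
  rw [sum3, Finset.mul_sum, Finset.sum_congr rfl fun e _ => h1 e, ← Finset.mul_sum]
  congr 1
  unfold Gv
  rw [Finset.sum_comm]

theorem label_JC (x y : E → ℝ≥0) (z w : E) :
    4 * ∑ r : E → Bool, ∑ c : E → Bool,
        ie (r z = true ∧ r w = true ∧ JC M x y z w c) (sel c y x w : ℝ≥0∞) =
      Fintype.card (E → Bool) * ∑ c, ie (JC M x y z w c) (sel c y x w : ℝ≥0∞) := by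
  rw [Finset.sum_comm, Finset.mul_sum, Finset.mul_sum]
  refine Finset.sum_congr rfl fun c _ => ?_
  by_cases hwz : w = z
  · have h1 : ¬ JC M x y z w c := fun h => h.1 hwz
    rw [ie_neg h1, mul_zero, Finset.sum_eq_zero, mul_zero]
    intro r _
    exact ie_neg (fun h => h1 h.2.2) _
  · have h4 : (4 : ℝ≥0∞) = 2 * 2 := by norm_num
    rw [h4, mul_assoc, two_mul_sum_label z (fun r => r w = true ∧ JC M x y z w c),
      two_mul_sum_label w (fun _ => JC M x y z w c) (fun _ => Iff.rfl), sum_label_const]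
    intro r
    unfold flip
    rw [Function.update_of_ne hwz]

/-- The loss term. -/
theorem loss_term (hM : M.E = univ) (x y : E → ℝ≥0) (l : (E → Bool) → List E)
    (hnd : ∀ r, (l r).Nodup) :
    4 * ∑ r : E → Bool, ∑ c : E → Bool,
        ∑ z, ∑ w, ie (RR M (fun f => r f = true) (sel c x y) (sel c y x) (l r) z w)
          (sel c y x w : ℝ≥0∞) ≤
      Fintype.card (E → Bool) * ∑ c : E → Bool, Gv M (sel c x y) := by
  have h1 : ∀ z w, 4 * ∑ r : E → Bool, ∑ c : E → Bool,
      ie (RR M (fun f => r f = true) (sel c x y) (sel c y x) (l r) z w) (sel c y x w : ℝ≥0∞) ≤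
      Fintype.card (E → Bool) *
        ∑ c, ie (JS M (sel c x y) (sel c y x w) z w) (sel c y x w : ℝ≥0∞) := by
    intro z w
    rw [← sum_JC_eq, ← label_JC]
    refine mul_le_mul_right (Finset.sum_le_sum fun r _ => ?_) _
    exact sum_RR_le x y (fun f => r f = true) (hnd r) z w
  rw [sum4, Finset.mul_sum]
  simp only [Finset.mul_sum (s := (Finset.univ : Finset E))]
  refine le_trans (Finset.sum_le_sum fun z _ => Finset.sum_le_sum fun w _ => h1 z w) ?_
  simp only [← Finset.mul_sum]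
  refine mul_le_mul_right ?_ _
  have h2 : ∑ z, ∑ w, ∑ c, ie (JS M (sel c x y) (sel c y x w) z w) (sel c y x w : ℝ≥0∞) =
      ∑ w, ∑ c, ∑ z, ie (JS M (sel c x y) (sel c y x w) z w) (sel c y x w : ℝ≥0∞) :=
    (sum3 (fun w c z => ie (JS M (sel c x y) (sel c y x w) z w) (sel c y x w : ℝ≥0∞))).symm
  rw [h2]
  calc ∑ w, ∑ c, ∑ z, ie (JS M (sel c x y) (sel c y x w) z w) (sel c y x w : ℝ≥0∞)
      ≤ ∑ w, ∑ c, ie (fresh M w (sel c y x w) (sel c x y)) (sel c y x w : ℝ≥0∞) :=
        Finset.sum_le_sum fun w _ => Finset.sum_le_sum fun c _ => sum_JS_le hM _ _ _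
    _ = ∑ w, ∑ c, ie (fresh M w (sel c x y w) (sel c x y)) (sel c x y w : ℝ≥0∞) :=
        Finset.sum_congr rfl fun w _ => sum_fresh_eq x y w
    _ = ∑ c, Gv M (sel c x y) := by
        unfold Gv
        rw [Finset.sum_comm]
    _ ≤ _ := le_rfl

theorem sum_not {A : Type*} [AddCommMonoid A] (G : (E → Bool) → A) :
    ∑ c : E → Bool, G (fun e => !c e) = ∑ c, G c :=
  sum_invol (fun c e => !c e) (fun c => by funext e; simp) G

theorem sel_not (c : E → Bool) (x y : E → ℝ≥0) : sel (fun e => !c e) x y = sel c y x := by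
  funext e
  unfold sel
  cases h : c e <;> simp [h]

/-- The core inequality. -/
theorem core (hM : M.E = univ) (x y : E → ℝ≥0) (o : (E → Bool) → Order E) :
    (4 : ℝ≥0∞)⁻¹ * Fintype.card (E → Bool) * ∑ c : E → Bool, opt M (sel c y x) ≤
      ∑ r : E → Bool, ∑ c : E → Bool,
        ∑ e ∈ accepted (acc M (fun f => r f = true) (sel c x y)) (history (sel c y x) (o r)),
          (sel c y x e : ℝ≥0∞) := by
  set N : ℝ≥0∞ := ((Fintype.card (E → Bool) : ℕ) : ℝ≥0∞) with hN
  set X : ℝ≥0∞ := ∑ c : E → Bool, Gv M (sel c x y) with hX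
  set G : ℝ≥0∞ := ∑ r : E → Bool, ∑ c : E → Bool,
        ∑ e ∈ accepted (acc M (fun f => r f = true) (sel c x y)) (history (sel c y x) (o r)),
          (sel c y x e : ℝ≥0∞) with hG
  have hl : ∀ r, (o r).1.reverse.Nodup := fun r => List.nodup_reverse.2 (o r).2.1
  set L : ℝ≥0∞ := ∑ r : E → Bool, ∑ c : E → Bool,
        ∑ z, ∑ w, ie (RR M (fun f => r f = true) (sel c x y) (sel c y x) ((o r).1.reverse) z w)
          (sel c y x w : ℝ≥0∞) with hL
  have h1 : ∑ c : E → Bool, opt M (sel c y x) ≤ X := by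
    have h2 : ∑ c : E → Bool, opt M (sel c y x) = ∑ c : E → Bool, opt M (sel c x y) := by
      rw [← sum_not]
      simp only [sel_not]
    rw [h2]
    exact Finset.sum_le_sum fun c _ => opt_le_Gv hM _
  have h3 : 4 * L ≤ N * X := loss_term hM x y (fun r => (o r).1.reverse) hl
  have h4 : N * X ≤ 2 * (G + L) := by
    rw [hN, hX, ← main_term x y, hG, hL, ← Finset.sum_add_distrib]
    refine mul_le_mul_right (Finset.sum_le_sum fun r _ => ?_) _
    rw [← Finset.sum_add_distrib]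
    refine Finset.sum_le_sum fun c _ => ?_
    have h5 := path_ineq (M := M) (act := fun f => r f = true) (s := sel c x y) (u := sel c y x)
      (hl r) (fun e => List.mem_reverse.2 ((o r).2.2 e))
    have h6 : history (sel c y x) (o r) = hs (sel c y x) ((o r).1.reverse) := by
      unfold history hs
      rw [List.map_reverse]
    rw [h6]
    exact h5
  have hXt : N * X ≠ ∞ := by
    refine ENNReal.mul_ne_top (ENNReal.natCast_ne_top _) ?_
    exact (ENNReal.sum_lt_top.2 fun c _ => (Gv_ne_top _).lt_top).ne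
  have h7 : N * X ≤ 4 * G := by
    have h8 : N * X + 4 * L ≤ 4 * G + 4 * L := by
      calc N * X + 4 * L ≤ N * X + N * X := by gcongr
        _ = 2 * (N * X) := by rw [two_mul]
        _ ≤ 2 * (2 * (G + L)) := by gcongr
        _ = 4 * G + 4 * L := by ring
    exact (ENNReal.add_le_add_iff_right (ne_top_of_le_ne_top hXt h3)).1 h8
  calc (4 : ℝ≥0∞)⁻¹ * N * ∑ c : E → Bool, opt M (sel c y x) ≤ (4 : ℝ≥0∞)⁻¹ * N * X := by gcongr
    _ = (4 : ℝ≥0∞)⁻¹ * (N * X) := by rw [mul_assoc]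
    _ ≤ (4 : ℝ≥0∞)⁻¹ * (4 * G) := by gcongr
    _ = G := by
        rw [← mul_assoc, ENNReal.inv_mul_cancel (by norm_num) (by norm_num), one_mul]

end Vale.Agent.P331.Osel
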