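import Vale.Agent.P331.Osel.Proc

/-!
# One-sample matroid prophet inequality, exchange-symmetric orders: the pathwise inequality
-/

namespace Vale.Agent.P331.Osel

open Set Vale.Agent.P331
open scoped NNReal ENNReal Classical

set_option linter.all false

variable {E : Type*} [Fintype E]

/-- `a` if `P` holds, `0` otherwise. -/
noncomputable def ie (P : Prop) (a : ℝ≥0∞) : ℝ≥0∞ := if P then a else 0

theorem ie_pos {P : Prop} (h : P) (a : ℝ≥0∞) : ie P a = a := if_pos h

theorem ie_neg {P : Prop} (h : ¬ P) (a : ℝ≥0∞) : ie P a = 0 := if_neg h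

theorem ie_mono {P Q : Prop} {a b : ℝ≥0∞} (h : P → Q) (hab : P → a ≤ b) : ie P a ≤ ie Q b := by
  by_cases hP : P
  · rw [ie_pos hP, ie_pos (h hP)]; exact hab hP
  · rw [ie_neg hP]; exact zero_le

theorem ie_congr {P Q : Prop} {a b : ℝ≥0∞} (h : P ↔ Q) (hab : Q → a = b) : ie P a = ie Q b := by
  by_cases hQ : Q
  · rw [ie_pos (h.2 hQ), ie_pos hQ, hab hQ]
  · rw [ie_neg (fun h' => hQ (h.1 h')), ie_neg hQ]

theorem ie_add_le {P Q R : Prop} {a : ℝ≥0∞} (h1 : P → R) (h2 : Q → R) (h3 : ¬ (P ∧ Q)) :
    ie P a + ie Q a ≤ ie R a := by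
  by_cases hP : P
  · have hQ : ¬ Q := fun hQ => h3 ⟨hP, hQ⟩
    rw [ie_pos hP, ie_neg hQ, ie_pos (h1 hP), add_zero]
  · rw [ie_neg hP, zero_add]
    exact ie_mono h2 fun _ => le_rfl

/-- The elements that arrive before `e` (lists of arrivals, most recent first). -/
noncomputable def bef : List E → E → List E
  | [], _ => []
  | x :: l, e => if x = e then l else bef l e

theorem bef_subset {l : List E} {e y : E} (h : y ∈ bef l e) : y ∈ l := by
  induction l with
  | nil => exact h
  | cons x l ih =>
    rw [bef] at h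
    split_ifs at h with hx
    · exact List.mem_cons_of_mem _ h
    · exact List.mem_cons_of_mem _ (ih h)

theorem bef_nodup {l : List E} (hnd : l.Nodup) (e : E) : (bef l e).Nodup := by
  induction l with
  | nil => simp [bef]
  | cons x l ih =>
    rw [bef]
    split_ifs with hx
    · exact (List.nodup_cons.1 hnd).2
    · exact ih (List.nodup_cons.1 hnd).2

theorem notMem_bef {l : List E} (hnd : l.Nodup) (e : E) : e ∉ bef l e := by
  induction l with
  | nil => simp [bef]
  | cons x l ih =>
    rw [bef]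
    split_ifs with hx
    · subst hx; exact (List.nodup_cons.1 hnd).1
    · exact ih (List.nodup_cons.1 hnd).2

theorem bef_bef {l : List E} (hnd : l.Nodup) {e y : E} (h : y ∈ bef l e) :
    bef (bef l e) y = bef l y := by
  induction l with
  | nil => rfl
  | cons x l ih =>
    have hnd' := List.nodup_cons.1 hnd
    rw [bef] at h
    split_ifs at h with hx
    · have hxy : x ≠ y := fun hh => hnd'.1 (hh ▸ h)
      rw [bef, if_pos hx, bef, if_neg hxy]
    · have hxy : x ≠ y := fun hh => hnd'.1 (hh ▸ bef_subset h)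
      rw [bef, if_neg hx, ih hnd'.2 h, bef, if_neg hxy]

theorem bef_asymm {l : List E} (hnd : l.Nodup) {e y : E} (h : y ∈ bef l e) : e ∉ bef l y := by
  intro h'
  rw [← bef_bef hnd h] at h'
  exact notMem_bef hnd e (bef_subset h')

theorem mem_of_mem_accepted {dec : List (E × ℝ≥0) → E × ℝ≥0 → Prop} {u : E → ℝ≥0} {l : List E}
    {e : E} (he : e ∈ accepted dec (hs u l)) : e ∈ l := by
  induction l with
  | nil => exact absurd he (by simp [hs, accepted])
  | cons x l ih =>
    change e ∈ accepted dec ((x, u x) :: hs u l) at he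
    rw [accepted] at he
    split_ifs at he with h
    · rcases Finset.mem_insert.1 he with rfl | he'
      · exact List.mem_cons_self
      · exact List.mem_cons_of_mem _ (ih he')
    · exact List.mem_cons_of_mem _ (ih he)

theorem mem_accepted_iff {dec : List (E × ℝ≥0) → E × ℝ≥0 → Prop} {u : E → ℝ≥0} {l : List E}
    (hnd : l.Nodup) {e : E} (he : e ∈ l) :
    e ∈ accepted dec (hs u l) ↔ dec (hs u (bef l e)) (e, u e) := by
  induction l with
  | nil => simp at he
  | cons x l ih =>
    have hnd' := List.nodup_cons.1 hnd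
    change e ∈ accepted dec ((x, u x) :: hs u l) ↔ _
    rw [accepted, bef]
    by_cases hx : x = e
    · subst hx
      rw [if_pos rfl]
      split_ifs with h
      · simp [h]
      · constructor
        · intro h'; exact absurd (mem_of_mem_accepted h') hnd'.1
        · intro h'; exact absurd h' h
    · rw [if_neg hx]
      have he' : e ∈ l := by
        rcases List.mem_cons.1 he with h | h
        · exact absurd h.symm hx
        · exact h
      rw [← ih hnd'.2 he']
      split_ifs with h
      · rw [Finset.mem_insert]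
        constructor
        · rintro (h' | h')
          · exact absurd h'.symm hx
          · exact h'
        · exact Or.inr
      · rfl

variable {M : Matroid E} {act : E → Prop}

theorem exists_rej_of_not_cln {z : E} {v : ℝ≥0} {s u : E → ℝ≥0} {l : List E} (hnd : l.Nodup)
    (h : ¬ cln M act z v s (hs u l)) :
    ∃ y ∈ l, rej M act z v s (hs u (bef l y)) (y, u y) := by
  induction l with
  | nil => exact absurd trivial h
  | cons x l ih =>
    have hnd' := List.nodup_cons.1 hnd
    have h' : ¬ (cln M act z v s (hs u l) ∧ ¬ rej M act z v s (hs u l) (x, u x)) := h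
    by_cases hc : cln M act z v s (hs u l)
    · have hr : rej M act z v s (hs u l) (x, u x) := by
        by_contra hr; exact h' ⟨hc, hr⟩
      refine ⟨x, List.mem_cons_self, ?_⟩
      rw [bef, if_pos rfl]; exact hr
    · obtain ⟨y, hy, hr⟩ := ih hnd'.2 hc
      have hxy : x ≠ y := fun hh => hnd'.1 (hh ▸ hy)
      refine ⟨y, List.mem_cons_of_mem _ hy, ?_⟩
      rw [bef, if_neg hxy]; exact hr

/-- The candidate `z` is fresh and rejects `y` when it arrives. -/
def RR (M : Matroid E) (act : E → Prop) (s u : E → ℝ≥0) (l : List E) (z y : E) : Prop :=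
  act z ∧ fresh M z (u z) s ∧ rej M act z (u z) s (hs u (bef l y)) (y, u y)

/-- A fresh active element which is not accepted has rejected an earlier arrival or is rejected by
an earlier arrival. -/
theorem lost {s u : E → ℝ≥0} {l : List E} (hnd : l.Nodup) {e : E} (he : e ∈ l) (ha : act e)
    (hf : fresh M e (u e) s) (hne : e ∉ accepted (acc M act s) (hs u l)) :
    (∃ y, y ∈ bef l e ∧ RR M act s u l e y) ∨ (∃ z, z ∈ bef l e ∧ RR M act s u l z e) := by
  rw [mem_accepted_iff hnd he] at hne
  by_cases hc : cln M act e (u e) s (hs u (bef l e))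
  · right
    have h1 : ¬ ∀ y ∈ hs u (bef l e), act y.1 → fresh M y.1 y.2 s →
        ¬ rej M act y.1 y.2 s (hs u (bef l e)) (e, u e) := fun h => hne ⟨ha, hf, hc, h⟩
    push Not at h1
    obtain ⟨y, hy, hay, hfy, hr⟩ := h1
    obtain ⟨z, hz, rfl⟩ := List.mem_map.1 hy
    exact ⟨z, hz, hay, hfy, hr⟩
  · left
    obtain ⟨y, hy, hr⟩ := exists_rej_of_not_cln (bef_nodup hnd e) hc
    rw [bef_bef hnd hy] at hr
    exact ⟨y, hy, ha, hf, hr⟩

/-- The pathwise inequality. -/
theorem path_ineq {s u : E → ℝ≥0} {l : List E} (hnd : l.Nodup) (hall : ∀ e, e ∈ l) :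
    ∑ e, ie (act e ∧ fresh M e (u e) s) (u e) ≤
      ∑ e ∈ accepted (acc M act s) (hs u l), (u e : ℝ≥0∞) +
        ∑ z, ∑ y, ie (RR M act s u l z y) (u y) := by
  set A := accepted (acc M act s) (hs u l) with hA
  have h1 : ∀ e, ie (act e ∧ fresh M e (u e) s) (u e : ℝ≥0∞) ≤ ie (e ∈ A) (u e) +
      (∑ y, ie (y ∈ bef l e ∧ RR M act s u l e y) (u e) +
        ∑ z, ie (z ∈ bef l e ∧ RR M act s u l z e) (u e)) := by
    intro e
    by_cases h : act e ∧ fresh M e (u e) s
    · rw [ie_pos h]
      by_cases heA : e ∈ A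
      · rw [ie_pos heA]; exact le_self_add
      · refine le_trans ?_ le_add_self
        rcases lost hnd (hall e) h.1 h.2 heA with ⟨y, hy⟩ | ⟨z, hz⟩
        · refine le_trans ?_ le_self_add
          calc (u e : ℝ≥0∞) = ie (y ∈ bef l e ∧ RR M act s u l e y) (u e) := (ie_pos hy _).symm
            _ ≤ _ := Finset.single_le_sum (f := fun y => ie (y ∈ bef l e ∧ RR M act s u l e y)
                (u e : ℝ≥0∞)) (fun _ _ => zero_le) (Finset.mem_univ y)
        · refine le_trans ?_ le_add_self
          calc (u e : ℝ≥0∞) = ie (z ∈ bef l e ∧ RR M act s u l z e) (u e) := (ie_pos hz _).symm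
            _ ≤ _ := Finset.single_le_sum (f := fun z => ie (z ∈ bef l e ∧ RR M act s u l z e)
                (u e : ℝ≥0∞)) (fun _ _ => zero_le) (Finset.mem_univ z)
    · rw [ie_neg h]; exact zero_le
  refine le_trans (Finset.sum_le_sum fun e _ => h1 e) ?_
  rw [Finset.sum_add_distrib, Finset.sum_add_distrib]
  refine add_le_add (le_of_eq ?_) ?_
  · rw [← Finset.sum_subset (Finset.subset_univ A)
      (fun x _ hx => ie_neg hx (u x : ℝ≥0∞))]
    exact Finset.sum_congr rfl fun x hx => ie_pos hx _
  · rw [Finset.sum_comm (f := fun e z => ie (z ∈ bef l e ∧ RR M act s u l z e) (u e : ℝ≥0∞)),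
      ← Finset.sum_add_distrib]
    refine Finset.sum_le_sum fun z _ => ?_
    rw [← Finset.sum_add_distrib]
    refine Finset.sum_le_sum fun y _ => ?_
    have h2 : ie (y ∈ bef l z ∧ RR M act s u l z y) (u z : ℝ≥0∞) ≤
        ie (y ∈ bef l z ∧ RR M act s u l z y) (u y : ℝ≥0∞) := by
      refine ie_mono id fun h => ?_
      exact_mod_cast le_of_kp_lt h.2.2.2.2.2.1
    refine le_trans (add_le_add_left h2 _) ?_
    exact ie_add_le (fun h => h.2) (fun h => h.2) fun h => bef_asymm hnd h.1.1 h.2.1

end Vale.Agent.P331.Osel
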