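import Vale.Agent.P331.Bdl.B1

/-!
# One-sample matroid prophet inequality, exchange-symmetric orders: the virtual sample process

For a candidate `z` with value `v` the virtual sample starts as the sample; when an active element
`y` arrives its sample value is replaced by its value, unless `y` is pivotal, that is `z` is spanned
by `y` and the elements which are heavier than `z` in the virtual sample.
-/

namespace Vale.Agent.P331.Osel

open Set Vale.Agent.P331
open scoped NNReal ENNReal Classical

set_option linter.all false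

variable {E : Type*} [Fintype E]

/-- The key of the element `e` with value `a`. -/
noncomputable def kp (e : E) (a : ℝ≥0) : ℝ≥0 ×ₗ ℕ := toLex (a, idx E e)

theorem key_eq (v : E → ℝ≥0) (e : E) : key v e = kp e (v e) := rfl

theorem kp_inj {e f : E} {a b : ℝ≥0} (h : kp e a = kp f b) : e = f := by
  have h1 : (a, idx E e) = (b, idx E f) := toLex.injective h
  exact idx_inj (Prod.ext_iff.1 h1).2

theorem le_of_kp_lt {e f : E} {a b : ℝ≥0} (h : kp e a < kp f b) : a ≤ b := by
  unfold kp at h
  rw [Prod.Lex.toLex_lt_toLex] at h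
  rcases h with h | h
  · exact h.le
  · exact h.1.le

/-- The elements other than `z` that are heavier than `(z, v)`, for the values `s`. -/
def HV (z : E) (v : ℝ≥0) (s : E → ℝ≥0) : Set E := {x | x ≠ z ∧ kp z v < kp x (s x)}

theorem HV_update_subset (z : E) (v : ℝ≥0) (s : E → ℝ≥0) (y : E) (a : ℝ≥0) :
    HV z v (Function.update s y a) ⊆ insert y (HV z v s) := by
  intro x hx
  by_cases h : x = y
  · exact Or.inl h
  · refine Or.inr ⟨hx.1, ?_⟩
    have h2 := hx.2
    rwa [Function.update_of_ne h] at h2

theorem insert_HV_update (z : E) (v : ℝ≥0) (s : E → ℝ≥0) (y : E) (a : ℝ≥0) :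
    insert y (HV z v (Function.update s y a)) = insert y (HV z v s) := by
  ext x
  by_cases h : x = y
  · simp [h]
  · simp only [mem_insert_iff, h, false_or, HV, Set.mem_ofPred_eq, Function.update_of_ne h]

variable (M : Matroid E) (act : E → Prop)

/-- The virtual sample of `(z, v)` after a history (most recent arrival first). -/
noncomputable def sg (z : E) (v : ℝ≥0) (s : E → ℝ≥0) : List (E × ℝ≥0) → E → ℝ≥0
  | [] => s
  | x :: h =>
    if act x.1 ∧ x.1 ≠ z ∧ z ∉ M.closure (insert x.1 (HV z v (sg z v s h))) then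
      Function.update (sg z v s h) x.1 x.2
    else sg z v s h

/-- The arrival `x` after the history `h` is rejected by the candidate `(z, v)`. -/
def rej (z : E) (v : ℝ≥0) (s : E → ℝ≥0) (h : List (E × ℝ≥0)) (x : E × ℝ≥0) : Prop :=
  act x.1 ∧ x.1 ≠ z ∧ kp z v < kp x.1 x.2 ∧ z ∈ M.closure (insert x.1 (HV z v (sg M act z v s h)))

/-- No arrival of the history is rejected by the candidate `(z, v)`. -/
def cln (z : E) (v : ℝ≥0) (s : E → ℝ≥0) : List (E × ℝ≥0) → Prop
  | [] => True
  | x :: h => cln z v s h ∧ ¬ rej M act z v s h x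

/-- `z` is not spanned by the heavier elements of the sample. -/
def fresh (z : E) (v : ℝ≥0) (s : E → ℝ≥0) : Prop := z ∉ M.closure (HV z v s)

/-- The decisions of the rule. -/
def acc (s : E → ℝ≥0) (h : List (E × ℝ≥0)) (x : E × ℝ≥0) : Prop :=
  act x.1 ∧ fresh M x.1 x.2 s ∧ cln M act x.1 x.2 s h ∧
    ∀ y ∈ h, act y.1 → fresh M y.1 y.2 s → ¬ rej M act y.1 y.2 s h x

variable {M act}

/-- The invariant of the process. -/
theorem fresh_sg {z : E} {v : ℝ≥0} {s : E → ℝ≥0} (hf : fresh M z v s) (h : List (E × ℝ≥0)) :
    z ∉ M.closure (HV z v (sg M act z v s h)) := by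
  induction h with
  | nil => exact hf
  | cons x h ih =>
    rw [sg]
    split_ifs with hx
    · intro hz
      exact hx.2.2 (M.closure_subset_closure (HV_update_subset z v _ x.1 x.2) hz)
    · exact ih

/-- The history of the values `v` for the list `l` of arrivals (most recent first). -/
def hs (v : E → ℝ≥0) (l : List E) : List (E × ℝ≥0) := l.map fun f => (f, v f)

omit [Fintype E] in
theorem exists_hs (h : List (E × ℝ≥0)) (hnd : (h.map Prod.fst).Nodup) :
    ∃ v : E → ℝ≥0, h = hs v (h.map Prod.fst) := by
  refine ⟨fun e => if hx : ∃ a, (e, a) ∈ h then hx.choose else 0, ?_⟩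
  unfold hs
  rw [List.map_map]
  symm
  rw [List.map_congr_left (g := id), List.map_id]
  intro x hx
  have hex : ∃ a, (x.1, a) ∈ h := ⟨x.2, hx⟩
  have h1 : (x.1, hex.choose) = x :=
    List.inj_on_of_nodup_map hnd hex.choose_spec hx rfl
  simp only [Function.comp, id]
  rw [dif_pos hex]
  exact h1

/-- An element which is not in the history keeps its sample value. -/
theorem sg_of_notMem {z : E} {v : ℝ≥0} {s u : E → ℝ≥0} {l : List E} {y : E} (hy : y ∉ l) :
    sg M act z v s (hs u l) y = s y := by
  induction l with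
  | nil => rfl
  | cons e l ih =>
    have h1 : y ≠ e := fun h => hy (h ▸ List.mem_cons_self)
    have h2 := ih fun h => hy (List.mem_cons_of_mem _ h)
    change sg M act z v s ((e, u e) :: hs u l) y = s y
    rw [sg]
    split_ifs with hx
    · rw [Function.update_of_ne h1]; exact h2
    · exact h2

theorem sg_cons_of_ne {z : E} {v : ℝ≥0} {s u : E → ℝ≥0} {l : List E} {y e : E} (h1 : y ≠ e) :
    sg M act z v s (hs u (e :: l)) y = sg M act z v s (hs u l) y := by
  change sg M act z v s ((e, u e) :: hs u l) y = _
  rw [sg]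
  split_ifs with hx
  · rw [Function.update_of_ne h1]
  · rfl

/-- An active arrival which is not rejected and heavier than `(z, v)` enters the virtual sample. -/
theorem sg_cons_self {z : E} {v : ℝ≥0} {s u : E → ℝ≥0} {l : List E} {y : E} (ha : act y)
    (hyz : y ≠ z) (hk : kp z v < kp y (u y)) (hr : ¬ rej M act z v s (hs u l) (y, u y)) :
    sg M act z v s (hs u (y :: l)) y = u y := by
  change sg M act z v s ((y, u y) :: hs u l) y = _
  rw [sg, if_pos]
  · simp
  · refine ⟨ha, hyz, fun hz => hr ⟨ha, hyz, hk, hz⟩⟩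

theorem sg_of_cln {z : E} {v : ℝ≥0} {s u : E → ℝ≥0} {l : List E} (hnd : l.Nodup)
    (hc : cln M act z v s (hs u l)) {y : E} (hy : y ∈ l) (ha : act y) (hyz : y ≠ z)
    (hk : kp z v < kp y (u y)) : sg M act z v s (hs u l) y = u y := by
  induction l with
  | nil => simp at hy
  | cons e l ih =>
    have hc' : cln M act z v s (hs u l) ∧ ¬ rej M act z v s (hs u l) (e, u e) := hc
    rcases List.mem_cons.1 hy with rfl | hy'
    · exact sg_cons_self ha hyz hk hc'.2
    · have hne : y ≠ e := fun h => (List.nodup_cons.1 hnd).1 (h ▸ hy')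
      rw [sg_cons_of_ne hne]
      exact ih (List.nodup_cons.1 hnd).2 hc'.1 hy'

/-- The accepted elements are active and fresh. -/
theorem of_mem_accepted {s u : E → ℝ≥0} {l : List E} {z : E}
    (hz : z ∈ accepted (acc M act s) (hs u l)) : z ∈ l ∧ act z ∧ fresh M z (u z) s := by
  induction l with
  | nil => exact absurd hz (by simp [hs, accepted])
  | cons e l ih =>
    change z ∈ accepted (acc M act s) ((e, u e) :: hs u l) at hz
    rw [accepted] at hz
    split_ifs at hz with h
    · rcases Finset.mem_insert.1 hz with rfl | hz'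
      · exact ⟨List.mem_cons_self, h.1, h.2.1⟩
      · obtain ⟨h1, h2⟩ := ih hz'
        exact ⟨List.mem_cons_of_mem _ h1, h2⟩
    · obtain ⟨h1, h2⟩ := ih hz
      exact ⟨List.mem_cons_of_mem _ h1, h2⟩

/-- The heavier accepted elements are in the virtual sample of every accepted element. -/
theorem sg_of_accepted {s u : E → ℝ≥0} {l : List E} (hnd : l.Nodup) {z y : E}
    (hz : z ∈ accepted (acc M act s) (hs u l)) (hy : y ∈ accepted (acc M act s) (hs u l))
    (hk : kp z (u z) < kp y (u y)) : sg M act z (u z) s (hs u l) y = u y := by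
  induction l with
  | nil => exact absurd hz (by simp [hs, accepted])
  | cons e l ih =>
    have hyz : y ≠ z := by
      rintro rfl; exact lt_irrefl _ hk
    have hnd' := List.nodup_cons.1 hnd
    change z ∈ accepted (acc M act s) ((e, u e) :: hs u l) at hz
    change y ∈ accepted (acc M act s) ((e, u e) :: hs u l) at hy
    rw [accepted] at hz hy
    split_ifs at hz hy with h
    · rcases Finset.mem_insert.1 hz with hze | hz'
      · rcases Finset.mem_insert.1 hy with hye | hy'
        · exact absurd (hye.trans hze.symm) hyz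
        · subst hze
          obtain ⟨h1, h2, h3⟩ := of_mem_accepted hy'
          rw [sg_cons_of_ne hyz]
          exact sg_of_cln hnd'.2 h.2.2.1 h1 h2 hyz hk
      · obtain ⟨h1, h2, h3⟩ := of_mem_accepted hz'
        rcases Finset.mem_insert.1 hy with hye | hy'
        · subst hye
          refine sg_cons_self h.1 hyz hk ?_
          exact h.2.2.2 (z, u z) (List.mem_map.2 ⟨z, h1, rfl⟩) h2 h3
        · have hye : y ≠ e := fun hh => hnd'.1 (hh ▸ (of_mem_accepted hy').1)
          rw [sg_cons_of_ne hye]
          exact ih hnd'.2 hz' hy'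
    · have hye : y ≠ e := fun hh => hnd'.1 (hh ▸ (of_mem_accepted hy).1)
      rw [sg_cons_of_ne hye]
      exact ih hnd'.2 hz hy

/-- The accepted set is independent. -/
theorem indep_accepted (hM : M.E = univ) (s : E → ℝ≥0) (h : List (E × ℝ≥0))
    (hnd : (h.map Prod.fst).Nodup) : M.Indep (accepted (acc M act s) h : Set E) := by
  obtain ⟨u, hu⟩ := exists_hs h hnd
  set l := h.map Prod.fst with hl
  rw [hu]
  set A := accepted (acc M act s) (hs u l) with hA
  have h1 : ∀ e ∈ A, e ∉ M.closure (∅ ∪ {f | f ∈ A ∧ key u e < key u f}) := by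
    intro e he hcl
    obtain ⟨h2, h3, h4⟩ := of_mem_accepted he
    refine fresh_sg (act := act) h4 (hs u l) (M.closure_subset_closure ?_ hcl)
    rw [empty_union]
    rintro f ⟨hf, hk⟩
    refine ⟨?_, ?_⟩
    · rintro rfl; exact lt_irrefl _ hk
    · rw [sg_of_accepted hnd he hf hk]
      exact hk
  have h2 := eRk_union_eq hM (key u) (key_inj u) ∅ A h1
  rw [empty_union, M.eRk_empty, zero_add] at h2
  have h3 : M.eRk (A : Set E) = (A : Set E).encard := by
    rw [h2, Set.encard_coe_eq_coe_finsetCard]
  exact (Matroid.indep_iff_eRk_eq_encard_of_finite A.finite_toSet).2 h3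

end Vale.Agent.P331.Osel
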