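import Vale.Agent.P331.Osel.Proc
import Vale.Agent.P331.Osel.Defs

/-!
# One-sample matroid prophet inequality, exchange-symmetric orders: measurability and the rule
-/

namespace Vale.Agent.P331.Osel

open MeasureTheory Set Vale.Agent.P331
open scoped NNReal ENNReal Classical

set_option linter.all false

section measurability

variable {E : Type*} [Fintype E] {Ω : Type*} [MeasurableSpace Ω]

theorem kp_lt_kp {e f : E} {a b : ℝ≥0} :
    kp e a < kp f b ↔ a < b ∨ a = b ∧ idx E e < idx E f := by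
  unfold kp
  rw [Prod.Lex.toLex_lt_toLex]

theorem measurableSet_kp_lt (e f : E) {a b : Ω → ℝ≥0} (ha : Measurable a) (hb : Measurable b) :
    MeasurableSet {ω | kp e (a ω) < kp f (b ω)} := by
  have h : {ω | kp e (a ω) < kp f (b ω)} =
      {ω | a ω < b ω} ∪ ({ω | a ω = b ω} ∩ {_ω | idx E e < idx E f}) := by
    ext ω
    exact kp_lt_kp
  rw [h]
  exact (measurableSet_lt ha hb).union ((measurableSet_eq_fun ha hb).inter (MeasurableSet.const _))

theorem measurableSet_mem_HV (z f : E) {a : Ω → ℝ≥0} {s : Ω → E → ℝ≥0} (ha : Measurable a)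
    (hs : ∀ y, Measurable fun ω => s ω y) : MeasurableSet {ω | f ∈ HV z (a ω) (s ω)} := by
  have h : {ω | f ∈ HV z (a ω) (s ω)} = {_ω | f ≠ z} ∩ {ω | kp z (a ω) < kp f (s ω f)} := by
    ext ω
    exact Iff.rfl
  rw [h]
  exact (MeasurableSet.const _).inter (measurableSet_kp_lt z f ha (hs f))

theorem measurableSet_cl_HV (M : Matroid E) (z : E) {a : Ω → ℝ≥0} {s : Ω → E → ℝ≥0}
    (ha : Measurable a) (hs : ∀ y, Measurable fun ω => s ω y) :
    MeasurableSet {ω | z ∈ M.closure (HV z (a ω) (s ω))} :=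
  measurableSet_of_mem (fun ω => HV z (a ω) (s ω))
    (fun f => measurableSet_mem_HV z f ha hs) (fun X => z ∈ M.closure X)

theorem measurableSet_cl_insert_HV (M : Matroid E) (z e : E) {a : Ω → ℝ≥0} {s : Ω → E → ℝ≥0}
    (ha : Measurable a) (hs : ∀ y, Measurable fun ω => s ω y) :
    MeasurableSet {ω | z ∈ M.closure (insert e (HV z (a ω) (s ω)))} := by
  refine measurableSet_of_mem (fun ω => insert e (HV z (a ω) (s ω))) (fun f => ?_)
    (fun X => z ∈ M.closure X)
  have h : {ω | f ∈ insert e (HV z (a ω) (s ω))} = {_ω | f = e} ∪ {ω | f ∈ HV z (a ω) (s ω)} := by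
    ext ω
    exact Iff.rfl
  rw [h]
  exact (MeasurableSet.const _).union (measurableSet_mem_HV z f ha hs)

/-- The virtual sample is measurable. -/
theorem measurable_sg (M : Matroid E) (act : E → Prop) (z : E) {a : Ω → ℝ≥0} {s v : Ω → E → ℝ≥0}
    (ha : Measurable a) (hs' : ∀ y, Measurable fun ω => s ω y)
    (hv : ∀ y, Measurable fun ω => v ω y) (l : List E) :
    ∀ y, Measurable fun ω => sg M act z (a ω) (s ω) (hs (v ω) l) y := by
  induction l with
  | nil => exact hs'
  | cons e l ih =>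
    intro y
    have hset : MeasurableSet {ω | act e ∧ e ≠ z ∧
        z ∉ M.closure (insert e (HV z (a ω) (sg M act z (a ω) (s ω) (hs (v ω) l))))} := by
      have h1 : {ω | act e ∧ e ≠ z ∧
        z ∉ M.closure (insert e (HV z (a ω) (sg M act z (a ω) (s ω) (hs (v ω) l))))} =
          {_ω | act e ∧ e ≠ z} ∩ {ω | z ∈ M.closure (insert e (HV z (a ω)
            (sg M act z (a ω) (s ω) (hs (v ω) l))))}ᶜ := by
        ext ω
        constructor
        · rintro ⟨h1, h2, h3⟩
          exact ⟨⟨h1, h2⟩, h3⟩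
        · rintro ⟨⟨h1, h2⟩, h3⟩
          exact ⟨h1, h2, h3⟩
      rw [h1]
      exact (MeasurableSet.const _).inter (measurableSet_cl_insert_HV M z e ha ih).compl
    have h2 : (fun ω => sg M act z (a ω) (s ω) (hs (v ω) (e :: l)) y) = fun ω =>
        if ω ∈ {ω | act e ∧ e ≠ z ∧
          z ∉ M.closure (insert e (HV z (a ω) (sg M act z (a ω) (s ω) (hs (v ω) l))))} then
          (if y = e then v ω e else sg M act z (a ω) (s ω) (hs (v ω) l) y)
        else sg M act z (a ω) (s ω) (hs (v ω) l) y := by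
      funext ω
      change sg M act z (a ω) (s ω) ((e, v ω e) :: hs (v ω) l) y = _
      rw [sg]
      by_cases hc : act e ∧ e ≠ z ∧
          z ∉ M.closure (insert e (HV z (a ω) (sg M act z (a ω) (s ω) (hs (v ω) l))))
      · rw [if_pos hc]
        rw [if_pos (show ω ∈ {ω | act e ∧ e ≠ z ∧
          z ∉ M.closure (insert e (HV z (a ω) (sg M act z (a ω) (s ω) (hs (v ω) l))))} from hc)]
        by_cases hy : y = e
        · subst hy
          rw [if_pos rfl, Function.update_self]
        · rw [if_neg hy, Function.update_of_ne hy]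
      · rw [if_neg hc]
        rw [if_neg (show ω ∉ {ω | act e ∧ e ≠ z ∧
          z ∉ M.closure (insert e (HV z (a ω) (sg M act z (a ω) (s ω) (hs (v ω) l))))} from hc)]
    rw [h2]
    refine Measurable.ite hset ?_ (ih y)
    by_cases hy : y = e
    · simp only [if_pos hy]
      exact hv e
    · simp only [if_neg hy]
      exact ih y

theorem measurableSet_rej (M : Matroid E) (act : E → Prop) (z : E) {a : Ω → ℝ≥0}
    {s v : Ω → E → ℝ≥0} (ha : Measurable a) (hs' : ∀ y, Measurable fun ω => s ω y)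
    (hv : ∀ y, Measurable fun ω => v ω y) (l : List E) (e : E) :
    MeasurableSet {ω | rej M act z (a ω) (s ω) (hs (v ω) l) (e, v ω e)} := by
  have h : {ω | rej M act z (a ω) (s ω) (hs (v ω) l) (e, v ω e)} =
      {_ω | act e ∧ e ≠ z} ∩ ({ω | kp z (a ω) < kp e (v ω e)} ∩
        {ω | z ∈ M.closure (insert e (HV z (a ω) (sg M act z (a ω) (s ω) (hs (v ω) l))))}) := by
    ext ω
    constructor
    · rintro ⟨h1, h2, h3, h4⟩
      exact ⟨⟨h1, h2⟩, h3, h4⟩
    · rintro ⟨⟨h1, h2⟩, h3, h4⟩
      exact ⟨h1, h2, h3, h4⟩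
  rw [h]
  exact (MeasurableSet.const _).inter ((measurableSet_kp_lt z e ha (hv e)).inter
    (measurableSet_cl_insert_HV M z e ha (measurable_sg M act z ha hs' hv l)))

theorem measurableSet_cln (M : Matroid E) (act : E → Prop) (z : E) {a : Ω → ℝ≥0}
    {s v : Ω → E → ℝ≥0} (ha : Measurable a) (hs' : ∀ y, Measurable fun ω => s ω y)
    (hv : ∀ y, Measurable fun ω => v ω y) (l : List E) :
    MeasurableSet {ω | cln M act z (a ω) (s ω) (hs (v ω) l)} := by
  induction l with
  | nil =>
    have h : {ω | cln M act z (a ω) (s ω) (hs (v ω) [])} = univ := by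
      ext ω
      exact ⟨fun _ => trivial, fun _ => trivial⟩
    rw [h]
    exact MeasurableSet.univ
  | cons e l ih =>
    have h : {ω | cln M act z (a ω) (s ω) (hs (v ω) (e :: l))} =
        {ω | cln M act z (a ω) (s ω) (hs (v ω) l)} ∩
          {ω | rej M act z (a ω) (s ω) (hs (v ω) l) (e, v ω e)}ᶜ := by
      ext ω
      exact Iff.rfl
    rw [h]
    exact ih.inter (measurableSet_rej M act z ha hs' hv l e).compl

theorem measurableSet_fresh (M : Matroid E) (z : E) {a : Ω → ℝ≥0} {s : Ω → E → ℝ≥0}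
    (ha : Measurable a) (hs' : ∀ y, Measurable fun ω => s ω y) :
    MeasurableSet {ω | fresh M z (a ω) (s ω)} :=
  (measurableSet_cl_HV M z ha hs').compl

/-- The decisions of the rule are measurable (general form). -/
theorem measurableSet_acc' (M : Matroid E) (act : E → Prop) {s v : Ω → E → ℝ≥0}
    (hs' : ∀ y, Measurable fun ω => s ω y) (hv : ∀ y, Measurable fun ω => v ω y) (l : List E)
    (e : E) : MeasurableSet {ω | acc M act (s ω) (hs (v ω) l) (e, v ω e)} := by
  have h : {ω | acc M act (s ω) (hs (v ω) l) (e, v ω e)} =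
      {_ω | act e} ∩ ({ω | fresh M e (v ω e) (s ω)} ∩
        ({ω | cln M act e (v ω e) (s ω) (hs (v ω) l)} ∩
          ⋂ f : E, ({_ω | f ∈ l → ¬ act f} ∪ ({ω | fresh M f (v ω f) (s ω)}ᶜ ∪
            {ω | rej M act f (v ω f) (s ω) (hs (v ω) l) (e, v ω e)}ᶜ)))) := by
    ext ω
    constructor
    · rintro ⟨h1, h2, h3, h4⟩
      refine ⟨h1, h2, h3, mem_iInter.2 fun f => ?_⟩
      by_cases hf : f ∈ l → ¬ act f
      · exact Or.inl hf
      · push Not at hf
        by_cases hfr : fresh M f (v ω f) (s ω)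
        · exact Or.inr (Or.inr (h4 (f, v ω f) (List.mem_map.2 ⟨f, hf.1, rfl⟩) hf.2 hfr))
        · exact Or.inr (Or.inl hfr)
    · rintro ⟨h1, h2, h3, h4⟩
      refine ⟨h1, h2, h3, ?_⟩
      intro y hy hact hfr
      obtain ⟨f, hf, rfl⟩ := List.mem_map.1 hy
      rcases mem_iInter.1 h4 f with h5 | h5 | h5
      · exact absurd hact (h5 hf)
      · exact absurd hfr h5
      · exact h5
  rw [h]
  refine (MeasurableSet.const _).inter ((measurableSet_fresh M e (hv e) hs').inter
    ((measurableSet_cln M act e (hv e) hs' hv l).inter (MeasurableSet.iInter fun f => ?_)))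
  exact (MeasurableSet.const _).union ((measurableSet_fresh M f (hv f) hs').compl.union
    (measurableSet_rej M act f (hv f) hs' hv l e).compl)

/-- The decisions of the rule are measurable. -/
theorem measurableSet_acc (M : Matroid E) (l : List E) (e : E) (r : E → Bool) :
    MeasurableSet {p : (E → ℝ≥0) × (E → ℝ≥0) |
      acc M (fun f => r f = true) p.1 (hs p.2 l) (e, p.2 e)} :=
  measurableSet_acc' M (fun f => r f = true)
    (fun y => (measurable_pi_apply y).comp measurable_fst)
    (fun y => (measurable_pi_apply y).comp measurable_snd) l e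

end measurability

section general

variable {E : Type*}

/-- If the seed is finite and uniform, competitiveness against the exchange-symmetric adversary
follows from a finite inequality for all pairs of values and all orders that depend on the seed. -/
theorem isSymCompetitive_of_core [Fintype E] {M : Matroid E} (R : OnlineRule M)
    [Fintype R.Seed] [MeasurableSingletonClass R.Seed]
    (hlaw : ∀ r, R.law {r} = ((Fintype.card R.Seed : ℝ≥0∞))⁻¹) (q : ℝ≥0∞)
    (hcore : ∀ x y : E → ℝ≥0, ∀ o : R.Seed → Order E,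
      q * Fintype.card R.Seed * ∑ c : E → Bool, opt M (sel c y x) ≤
        ∑ r, ∑ c : E → Bool, R.gain r (sel c x y) (sel c y x) (o r)) :
    IsSymCompetitive R q := by
  intro D hD _ π hπ hsym
  set P := Measure.pi D with hP
  set N : ℝ≥0∞ := (Fintype.card R.Seed : ℝ≥0∞) with hN
  have hneS : Nonempty R.Seed := by
    by_contra hne
    rw [not_nonempty_iff] at hne
    have h1 : R.law univ = 1 := measure_univ
    have h2 : (univ : Set R.Seed) = ∅ := univ_eq_empty_iff.2 hne
    rw [h2, measure_empty] at h1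
    exact zero_ne_one h1
  have hN0 : N ≠ 0 := by
    rw [hN]
    exact_mod_cast Fintype.card_ne_zero
  have hNt : N ≠ ∞ := ENNReal.natCast_ne_top _
  set T : ℝ≥0∞ := (Fintype.card (E → Bool) : ℝ≥0∞) with hT
  have hT0 : T ≠ 0 := by
    rw [hT]; exact_mod_cast Fintype.card_ne_zero
  have hTt : T ≠ ∞ := ENNReal.natCast_ne_top _
  -- the gain for the order of the adversary
  set G : R.Seed → (E → ℝ≥0) → (E → ℝ≥0) → ℝ≥0∞ :=
    fun r s v => R.gain r s v (π (r, s, v)) with hG
  have hGm : Measurable fun ω : R.Seed × (E → ℝ≥0) × (E → ℝ≥0) => G ω.1 ω.2.1 ω.2.2 := by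
    have _ := Fintype.ofFinite (Order E)
    have h1 : (fun ω : R.Seed × (E → ℝ≥0) × (E → ℝ≥0) => G ω.1 ω.2.1 ω.2.2) = fun ω =>
        ∑ o : Order E, (π ⁻¹' {o}).indicator (fun ω => R.gain ω.1 ω.2.1 ω.2.2 o) ω := by
      funext ω
      have h0 : ∀ o ∈ (Finset.univ : Finset (Order E)), o ≠ π ω →
          (π ⁻¹' {o}).indicator (fun ω : R.Seed × (E → ℝ≥0) × (E → ℝ≥0) =>
            R.gain ω.1 ω.2.1 ω.2.2 o) ω = 0 := by
        intro o _ ho
        have h3 : ω ∉ π ⁻¹' {o} := fun h => ho (show π ω = o from h).symm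
        exact indicator_of_notMem h3 _
      rw [Finset.sum_eq_single (π ω) h0 (fun h => absurd (Finset.mem_univ _) h)]
      have h4 : (π ⁻¹' {π ω}).indicator (fun ω : R.Seed × (E → ℝ≥0) × (E → ℝ≥0) =>
          R.gain ω.1 ω.2.1 ω.2.2 (π ω)) ω = R.gain ω.1 ω.2.1 ω.2.2 (π ω) :=
        indicator_of_mem (show ω ∈ π ⁻¹' {π ω} from rfl) _
      exact h4.symm
    rw [h1]
    exact Finset.measurable_sum _ fun o _ => (measurable_gain R o).indicator (hπ o)
  have hGm' : ∀ r, Measurable fun p : (E → ℝ≥0) × (E → ℝ≥0) => G r p.1 p.2 := by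
    intro r
    exact hGm.comp (measurable_const.prodMk measurable_id)
  -- step 2
  have h2 : ∫⁻ ω, R.gain ω.1 ω.2.1 ω.2.2 (π ω) ∂(R.law.prod (P.prod P)) =
      N⁻¹ * ∫⁻ p, ∑ r, G r p.1 p.2 ∂(P.prod P) := by
    change ∫⁻ ω : R.Seed × (E → ℝ≥0) × (E → ℝ≥0), G ω.1 ω.2.1 ω.2.2 ∂(R.law.prod (P.prod P)) = _
    rw [lintegral_prod _ hGm.aemeasurable, lintegral_fintype]
    simp only [hlaw]
    rw [← Finset.sum_mul, mul_comm, lintegral_finsetSum]
    intro r _
    exact hGm' r
  rw [h2]
  -- step 3: symmetrization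
  have hmeasSum : Measurable fun p : (E → ℝ≥0) × (E → ℝ≥0) => ∑ r, G r p.1 p.2 :=
    Finset.measurable_sum _ fun r _ => hGm' r
  have hPprob : IsProbabilityMeasure P := by rw [hP]; infer_instance
  have hm : Measurable fun p : (E → ℝ≥0) × (E → ℝ≥0) => opt M p.2 :=
    (measurable_opt M).comp measurable_snd
  have h3 : T * ∫⁻ p, ∑ r, G r p.1 p.2 ∂(P.prod P) =
      ∫⁻ p, ∑ c : E → Bool, ∑ r, G r (sel c p.1 p.2) (sel c p.2 p.1) ∂(P.prod P) :=
    symm_lintegral D (fun s v => ∑ r, G r s v) hmeasSum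
  have h4 : T * ∫⁻ v, opt M v ∂P =
      ∫⁻ p, ∑ c : E → Bool, opt M (sel c p.2 p.1) ∂(P.prod P) := by
    have h4a := symm_lintegral D (fun _ v => opt M v) hm
    rw [← h4a]
    congr 1
    exact (measurePreserving_snd.lintegral_comp (measurable_opt M)).symm
  have hmS : Measurable fun p : (E → ℝ≥0) × (E → ℝ≥0) =>
      ∑ c : E → Bool, opt M (sel c p.2 p.1) := by
    refine Finset.measurable_sum _ fun c _ => ?_
    have hsel : Measurable fun p : (E → ℝ≥0) × (E → ℝ≥0) => sel c p.2 p.1 :=
      measurable_snd.comp (measurePreserving_swap_sel D c).measurable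
    exact (measurable_opt M).comp hsel
  -- step 4: pointwise inequality
  have h5 : ∀ p : (E → ℝ≥0) × (E → ℝ≥0),
      q * N * ∑ c : E → Bool, opt M (sel c p.2 p.1) ≤
        ∑ c : E → Bool, ∑ r, G r (sel c p.1 p.2) (sel c p.2 p.1) := by
    intro p
    have h6 := hcore p.1 p.2 (fun r => π (r, p.1, p.2))
    rw [Finset.sum_comm]
    refine h6.trans (le_of_eq ?_)
    refine Finset.sum_congr rfl fun r _ => Finset.sum_congr rfl fun c _ => ?_
    have h7 : π (r, sel c p.1 p.2, sel c p.2 p.1) = π (r, p.1, p.2) := hsym r p.1 p.2 c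
    change _ = R.gain r (sel c p.1 p.2) (sel c p.2 p.1) (π (r, sel c p.1 p.2, sel c p.2 p.1))
    rw [h7]
  clear_value G P
  have h6 : q * N * (T * ∫⁻ v, opt M v ∂P) ≤ T * ∫⁻ p, ∑ r, G r p.1 p.2 ∂(P.prod P) := by
    rw [h3, h4, ← lintegral_const_mul _ hmS]
    exact lintegral_mono h5
  have h7 : q * N * (T * ∫⁻ v, opt M v ∂P) = T * (N * (q * ∫⁻ v, opt M v ∂P)) := by ring
  rw [h7, ENNReal.mul_le_mul_iff_right hT0 hTt] at h6
  have h8 : N * (N⁻¹ * ∫⁻ p, ∑ r, G r p.1 p.2 ∂(P.prod P)) =
      ∫⁻ p, ∑ r, G r p.1 p.2 ∂(P.prod P) := by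
    rw [← mul_assoc, ENNReal.mul_inv_cancel hN0 hNt, one_mul]
  rw [← ENNReal.mul_le_mul_iff_right hN0 hNt, h8]
  exact h6

end general

section rule

variable {E : Type} [Fintype E] {M : Matroid E}

/-- The rule: the seed is a uniformly random set of active elements. -/
noncomputable def symRule (hM : M.E = univ) : OnlineRule M where
  Seed := E → Bool
  law := unif (E → Bool)
  isProb := unif_prob _
  accept r s := acc M (fun f => r f = true) s
  measurable_accept := by
    intro l e
    have hset : {ω : (E → Bool) × (E → ℝ≥0) × (E → ℝ≥0) |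
        acc M (fun f => ω.1 f = true) ω.2.1 (l.map fun f => (f, ω.2.2 f)) (e, ω.2.2 e)} =
        ⋃ r : E → Bool, {r} ×ˢ {p : (E → ℝ≥0) × (E → ℝ≥0) |
          acc M (fun f => r f = true) p.1 (hs p.2 l) (e, p.2 e)} := by
      ext ⟨r, s, v⟩
      simp only [mem_iUnion, mem_prod, mem_singleton_iff]
      constructor
      · intro h
        exact ⟨r, rfl, h⟩
      · rintro ⟨r', rfl, h⟩
        exact h
    rw [hset]
    exact MeasurableSet.iUnion fun r => (MeasurableSet.singleton r).prod (measurableSet_acc M l e r)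
  feasible := by
    intro r s h hnd
    exact indep_accepted hM s h hnd

/-- The finite core inequality implies that the rule is competitive against the
exchange-symmetric adversary. -/
theorem symRule_of_core (hM : M.E = univ) (q : ℝ≥0∞)
    (hcore : ∀ x y : E → ℝ≥0, ∀ o : (E → Bool) → Order E,
      q * Fintype.card (E → Bool) * ∑ c : E → Bool, opt M (sel c y x) ≤
        ∑ r : E → Bool, ∑ c : E → Bool,
          ∑ e ∈ accepted (acc M (fun f => r f = true) (sel c x y)) (history (sel c y x) (o r)),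
            (sel c y x e : ℝ≥0∞)) :
    IsSymCompetitive (symRule hM) q := by
  let _ : Fintype (symRule hM).Seed := (inferInstance : Fintype (E → Bool))
  have _ : MeasurableSingletonClass (symRule hM).Seed :=
    (inferInstance : MeasurableSingletonClass (E → Bool))
  refine isSymCompetitive_of_core (symRule hM) (fun r => unif_singleton (E → Bool) r) q ?_
  intro x y o
  exact hcore x y o

end rule

end Vale.Agent.P331.Osel
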