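import Vale.Agent.P331.Osel.Defs
import Vale.Agent.P331.Osel.Proc

/-!
# The random-order (secretary) rule obtained from the one-sample rule

The first `T` arrivals are the sample. The sample elements are then inserted, with value `0`, at
random places of the order of the other arrivals; the resulting virtual order is uniform and
independent of the sample.
-/

namespace Vale.Agent.P331.Osel

open Set Vale.Agent.P331
open scoped NNReal ENNReal Classical

set_option linter.all false

namespace Sec

variable {E : Type*}

/-- The virtual history (first arrival first) for the pattern `b`: at an entry `true` the next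
sample element of `A` arrives with value `0`, at an entry `false` the next arrival of `B`. It stops
when the next arrival is not yet known. -/
def vh : List Bool → List (E × ℝ≥0) → List (E × ℝ≥0) → List (E × ℝ≥0)
  | [], _, _ => []
  | true :: _, [], _ => []
  | true :: b, x :: A, B => (x.1, 0) :: vh b A B
  | false :: _, _, [] => []
  | false :: b, A, y :: B => y :: vh b A B

@[simp] theorem vh_nil (A B : List (E × ℝ≥0)) : vh [] A B = [] := by
  cases A <;> cases B <;> rfl

@[simp] theorem vh_true_nil (b : List Bool) (B : List (E × ℝ≥0)) : vh (true :: b) [] B = [] := by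
  cases B <;> rfl

@[simp] theorem vh_true_cons (b : List Bool) (x : E × ℝ≥0) (A B : List (E × ℝ≥0)) :
    vh (true :: b) (x :: A) B = (x.1, 0) :: vh b A B := by
  cases B <;> rfl

@[simp] theorem vh_false_nil (b : List Bool) (A : List (E × ℝ≥0)) : vh (false :: b) A [] = [] := by
  cases A <;> rfl

@[simp] theorem vh_false_cons (b : List Bool) (y : E × ℝ≥0) (A B : List (E × ℝ≥0)) :
    vh (false :: b) A (y :: B) = y :: vh b A B := by
  cases A <;> rfl

theorem mem_vh (b : List Bool) : ∀ (A B : List (E × ℝ≥0)) (e : E),
    e ∈ (vh b A B).map Prod.fst → e ∈ A.map Prod.fst ∨ e ∈ B.map Prod.fst := by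
  induction b with
  | nil => intro A B e h; simp at h
  | cons t b ih =>
    intro A B e h
    cases t with
    | true =>
      cases A with
      | nil => simp at h
      | cons x A =>
        rw [vh_true_cons, List.map_cons, List.mem_cons] at h
        rcases h with h | h
        · left; rw [h]; exact List.mem_cons_self
        · rcases ih A B e h with h | h
          · left; exact List.mem_cons_of_mem _ h
          · right; exact h
    | false =>
      cases B with
      | nil => simp at h
      | cons y B =>
        rw [vh_false_cons, List.map_cons, List.mem_cons] at h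
        rcases h with h | h
        · right; rw [h]; exact List.mem_cons_self
        · rcases ih A B e h with h | h
          · left; exact h
          · right; exact List.mem_cons_of_mem _ h

theorem nodup_vh (b : List Bool) : ∀ (A B : List (E × ℝ≥0)),
    ((A ++ B).map Prod.fst).Nodup → ((vh b A B).map Prod.fst).Nodup := by
  induction b with
  | nil => intro A B h; simp
  | cons t b ih =>
    intro A B h
    cases t with
    | true =>
      cases A with
      | nil => simp
      | cons x A =>
        rw [vh_true_cons, List.map_cons, List.nodup_cons]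
        rw [List.cons_append, List.map_cons, List.nodup_cons, List.map_append, List.mem_append] at h
        refine ⟨fun hx => h.1 (mem_vh b A B _ hx), ih A B ?_⟩
        rw [List.map_append]; exact h.2
    | false =>
      cases B with
      | nil => simp
      | cons y B =>
        rw [vh_false_cons, List.map_cons, List.nodup_cons]
        have h' : ((y :: (A ++ B)).map Prod.fst).Nodup := by
          refine (List.Perm.nodup_iff ?_).1 h
          exact (List.perm_middle).map _
        rw [List.map_cons, List.nodup_cons, List.map_append, List.mem_append] at h'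
        refine ⟨fun hx => h'.1 (mem_vh b A B _ hx), ih A B ?_⟩
        rw [List.map_append]; exact h'.2

theorem vh_prefix (b : List Bool) : ∀ (A B C : List (E × ℝ≥0)),
    vh b A B <+: vh b A (B ++ C) := by
  induction b with
  | nil => intro A B C; simp
  | cons t b ih =>
    intro A B C
    cases t with
    | true =>
      cases A with
      | nil => simp
      | cons x A =>
        rw [vh_true_cons, vh_true_cons]
        exact (List.prefix_cons_inj _).2 (ih A B C)
    | false =>
      cases B with
      | nil => simp
      | cons y B =>
        rw [List.cons_append, vh_false_cons, vh_false_cons]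
        exact (List.prefix_cons_inj _).2 (ih A B C)

/-- The virtual history of an order `π` with coins `c`. -/
theorem map_prefix_vh (c : E → Bool) (w : E → ℝ≥0) (π₁ : List E) : ∀ π₂ : List E,
    (π₁.map fun e => (e, mix c (0 : E → ℝ≥0) w e)) <+:
      vh ((π₁ ++ π₂).map c) (((π₁ ++ π₂).filter fun e => c e).map fun e => (e, w e))
        ((π₁.filter fun e => !c e).map fun e => (e, w e)) := by
  induction π₁ with
  | nil => intro π₂; simp
  | cons a π₁ ih =>
    intro π₂
    rcases hc : c a with _ | _
    · have h := ih π₂
      simpa [hc, mix] using h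
    · have h := ih π₂
      simpa [hc, mix] using h

theorem accepted_append (dec : List (E × ℝ≥0) → E × ℝ≥0 → Prop) (h1 h0 : List (E × ℝ≥0)) :
    accepted dec h0 ⊆ accepted dec (h1 ++ h0) := by
  induction h1 with
  | nil => exact Finset.Subset.refl _
  | cons x h1 ih =>
    rw [List.cons_append, accepted]
    split_ifs
    · exact ih.trans (Finset.subset_insert _ _)
    · exact ih

theorem accepted_prefix (dec : List (E × ℝ≥0) → E × ℝ≥0 → Prop) {L0 L : List (E × ℝ≥0)}
    (h : L0 <+: L) : accepted dec L0.reverse ⊆ accepted dec L.reverse := by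
  obtain ⟨t, rfl⟩ := h
  rw [List.reverse_append]
  exact accepted_append dec _ _

theorem mem_accepted_of_append (dec : List (E × ℝ≥0) → E × ℝ≥0 → Prop) {h1 h0 : List (E × ℝ≥0)}
    {e : E} (he : e ∉ h1.map Prod.fst) (h : e ∈ accepted dec (h1 ++ h0)) :
    e ∈ accepted dec h0 := by
  induction h1 with
  | nil => exact h
  | cons x h1 ih =>
    rw [List.map_cons, List.mem_cons, not_or] at he
    rw [List.cons_append, accepted] at h
    split_ifs at h
    · rcases Finset.mem_insert.1 h with h | h
      · exact absurd h he.1
      · exact ih he.2 h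
    · exact ih he.2 h

/-- The sample values of a list of arrivals. -/
noncomputable def samp (A : List (E × ℝ≥0)) (e : E) : ℝ≥0 :=
  (A.map fun p => if p.1 = e then p.2 else 0).sum

theorem samp_map (w : E → ℝ≥0) {L : List E} (hL : L.Nodup) (e : E) :
    samp (L.map fun f => (f, w f)) e = if e ∈ L then w e else 0 := by
  induction L with
  | nil => simp [samp]
  | cons a L ih =>
    have h1 := List.nodup_cons.1 hL
    have h2 := ih h1.2
    unfold samp at h2 ⊢
    rw [List.map_cons, List.map_cons, List.sum_cons, h2]
    by_cases hae : a = e
    · subst hae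
      simp [h1.1]
    · have h3 : e ≠ a := fun h => hae h.symm
      simp [hae, h3]

variable [Fintype E]

/-- The random-order rule: `r` = labels, `b` = pattern. The first `b.count true` arrivals are the
sample. -/
def srule (M : Matroid E) (r : E → Bool) (b : List Bool) (h : List (E × ℝ≥0)) (x : E × ℝ≥0) :
    Prop :=
  b.count true ≤ h.length ∧
    x.1 ∈ accepted (acc M (fun f => r f = true) (samp (h.reverse.take (b.count true))))
      (vh b (h.reverse.take (b.count true)) (h.reverse.drop (b.count true) ++ [x])).reverse

theorem accepted_srule_of_le (M : Matroid E) (r : E → Bool) (b : List Bool)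
    (h : List (E × ℝ≥0)) (hl : h.length ≤ b.count true) : accepted (srule M r b) h = ∅ := by
  induction h with
  | nil => rfl
  | cons x h ih =>
    rw [List.length_cons] at hl
    rw [accepted, if_neg]
    · exact ih (by omega)
    · intro hs
      have := hs.1
      omega

theorem accepted_srule_subset (M : Matroid E) (r : E → Bool) (b : List Bool)
    (h : List (E × ℝ≥0)) : accepted (srule M r b) h ⊆
      accepted (acc M (fun f => r f = true) (samp (h.reverse.take (b.count true))))
        (vh b (h.reverse.take (b.count true)) (h.reverse.drop (b.count true))).reverse := by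
  induction h with
  | nil => intro e he; simp [accepted] at he
  | cons x h ih =>
    by_cases hl : b.count true ≤ h.length
    · have h1 : (x :: h).reverse.take (b.count true) = h.reverse.take (b.count true) := by
        rw [List.reverse_cons, List.take_append_of_le_length]
        rwa [List.length_reverse]
      have h2 : (x :: h).reverse.drop (b.count true) = h.reverse.drop (b.count true) ++ [x] := by
        rw [List.reverse_cons, List.drop_append_of_le_length]
        rwa [List.length_reverse]
      rw [h1, h2]
      have h3 := ih.trans (accepted_prefix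
        (acc M (fun f => r f = true) (samp (h.reverse.take (b.count true))))
        (vh_prefix b (h.reverse.take (b.count true)) (h.reverse.drop (b.count true)) [x]))
      intro e he
      rw [accepted] at he
      split_ifs at he with hs
      · rcases Finset.mem_insert.1 he with he | he
        · rw [he]; exact hs.2
        · exact h3 he
      · exact h3 he
    · rw [accepted_srule_of_le M r b (x :: h) (by rw [List.length_cons]; omega)]
      exact Finset.empty_subset _

theorem indep_srule {M : Matroid E} (hM : M.E = univ) (r : E → Bool) (b : List Bool)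
    (h : List (E × ℝ≥0)) (hnd : (h.map Prod.fst).Nodup) :
    M.Indep (accepted (srule M r b) h : Set E) := by
  refine Matroid.Indep.subset (indep_accepted hM (samp (h.reverse.take (b.count true)))
    (vh b (h.reverse.take (b.count true)) (h.reverse.drop (b.count true))).reverse ?_)
    (Finset.coe_subset.2 (accepted_srule_subset M r b h))
  rw [List.map_reverse, List.nodup_reverse]
  refine nodup_vh b _ _ ?_
  rw [List.take_append_drop, List.map_reverse, List.nodup_reverse]
  exact hnd

theorem mem_accepted_srule (M : Matroid E) (r : E → Bool) (w : E → ℝ≥0) (c : E → Bool)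
    {π : List E} (hπ : π.Nodup) (hall : ∀ e, e ∈ π) {e : E} (hc : c e = false)
    (he : e ∈ accepted (acc M (fun f => r f = true) (mix c w 0))
      (π.map fun f => (f, mix c (0 : E → ℝ≥0) w f)).reverse) :
    e ∈ accepted (srule M r (π.map c))
      (((π.filter fun f => c f) ++ (π.filter fun f => !c f)).map fun f => (f, w f)).reverse := by
  obtain ⟨π₁, π₂, rfl⟩ := List.append_of_mem (hall e)
  have hnd := List.nodup_append.1 hπ
  have hnd2 := List.nodup_cons.1 hnd.2.1
  -- the decision of the virtual rule
  have h1 : e ∈ accepted (acc M (fun f => r f = true) (mix c w 0))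
      ((π₁ ++ [e]).map fun f => (f, mix c (0 : E → ℝ≥0) w f)).reverse := by
    refine mem_accepted_of_append _ (h1 := (π₂.map fun f => (f, mix c (0 : E → ℝ≥0) w f)).reverse)
      ?_ ?_
    · rw [List.map_reverse, List.mem_reverse, List.map_map]
      intro hm
      obtain ⟨f, hf, hfe⟩ := List.mem_map.1 hm
      exact hnd2.1 (by simpa using (show f = e from hfe) ▸ hf)
    · rw [← List.reverse_append, ← List.map_append, List.append_assoc, List.singleton_append]
      exact he
  have hT : ((π₁ ++ e :: π₂).map c).count true = ((π₁ ++ e :: π₂).filter fun f => c f).length := by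
    rw [List.count, List.countP_map, List.countP_eq_length_filter]
    congr 1
    refine List.filter_congr fun f _ => ?_
    simp
  have hs : samp (((π₁ ++ e :: π₂).filter fun f => c f).map fun f => (f, w f)) = mix c w 0 := by
    funext f
    rw [samp_map w (hπ.filter _)]
    by_cases hcf : c f = true
    · rw [if_pos (List.mem_filter.2 ⟨hall f, hcf⟩)]
      simp [mix, hcf]
    · rw [if_neg (fun hh => hcf (List.mem_filter.1 hh).2)]
      simp [mix, hcf]
  have h2 : srule M r ((π₁ ++ e :: π₂).map c)
      (((((π₁ ++ e :: π₂).filter fun f => c f) ++ (π₁.filter fun f => !c f)).map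
        fun f => (f, w f)).reverse) (e, w e) := by
    unfold srule
    rw [hT, List.reverse_reverse, List.map_append]
    have ht : List.take ((π₁ ++ e :: π₂).filter fun f => c f).length
        ((((π₁ ++ e :: π₂).filter fun f => c f).map fun f => (f, w f)) ++
          ((π₁.filter fun f => !c f).map fun f => (f, w f))) =
        (((π₁ ++ e :: π₂).filter fun f => c f).map fun f => (f, w f)) := by
      rw [List.take_append_of_le_length (by rw [List.length_map]), List.take_of_length_le]
      rw [List.length_map]
    have hd : List.drop ((π₁ ++ e :: π₂).filter fun f => c f).length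
        ((((π₁ ++ e :: π₂).filter fun f => c f).map fun f => (f, w f)) ++
          ((π₁.filter fun f => !c f).map fun f => (f, w f))) =
        ((π₁.filter fun f => !c f).map fun f => (f, w f)) := by
      rw [List.drop_append_of_le_length (by rw [List.length_map]), List.drop_of_length_le,
        List.nil_append]
      rw [List.length_map]
    rw [ht, hd, hs]
    refine ⟨by simp; omega, ?_⟩
    have h3 := map_prefix_vh c w (π₁ ++ [e]) π₂
    have h5 : ((π₁ ++ [e]).filter fun f => !c f).map (fun f => (f, w f)) =
        (π₁.filter fun f => !c f).map (fun f => (f, w f)) ++ [(e, w e)] := by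
      rw [List.filter_append]
      simp [hc]
    rw [List.append_assoc, List.singleton_append, h5] at h3
    exact accepted_prefix (acc M (fun f => r f = true) (mix c w 0)) h3 h1
  have h6 : ((((π₁ ++ e :: π₂).filter fun f => c f) ++
      ((π₁ ++ e :: π₂).filter fun f => !c f)).map fun f => (f, w f)).reverse =
      ((π₂.filter fun f => !c f).map fun f => (f, w f)).reverse ++
        ((e, w e) :: ((((π₁ ++ e :: π₂).filter fun f => c f) ++ (π₁.filter fun f => !c f)).map
        fun f => (f, w f)).reverse) := by
    have h7 : ((π₁ ++ e :: π₂).filter fun f => !c f) =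
        (π₁.filter fun f => !c f) ++ e :: (π₂.filter fun f => !c f) := by
      rw [List.filter_append]
      simp [hc]
    rw [h7]
    simp
  rw [h6]
  refine accepted_append _ _ _ ?_
  rw [accepted, if_pos h2]
  exact Finset.mem_insert_self _ _

/-! ### The sum over all orders -/

instance instFiniteOrder : Finite (Order E) := by
  refine Finite.of_injective (fun o : Order E => (⟨o.1, o.2.1⟩ : {l : List E // l.Nodup})) ?_
  intro o o' h
  exact Subtype.ext (congrArg (fun x : {l : List E // l.Nodup} => x.1) h)

noncomputable instance instFintypeOrder : Fintype (Order E) := Fintype.ofFinite _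

theorem length_order (o : Order E) : o.1.length = Fintype.card E := by
  rw [← List.toFinset_card_of_nodup o.2.1]
  have : o.1.toFinset = Finset.univ := by
    ext e; simp [o.2.2 e]
  rw [this, Finset.card_univ]

/-- From the virtual order and the coins to the real order and the pattern. -/
noncomputable def phi (p : Order E × (E → Bool)) : List.Vector Bool (Fintype.card E) × Order E :=
  (⟨p.1.1.map p.2, by rw [List.length_map, length_order]⟩,
    ⟨(p.1.1.filter fun f => p.2 f) ++ (p.1.1.filter fun f => !p.2 f), by
      refine List.nodup_append.2 ⟨p.1.2.1.filter _, p.1.2.1.filter _, ?_⟩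
      intro a ha b hb hab
      subst hab
      have h1 := (List.mem_filter.1 ha).2
      have h2 := (List.mem_filter.1 hb).2
      simp_all, fun e => by
      rw [List.mem_append, List.mem_filter, List.mem_filter]
      have h1 := p.1.2.2 e
      rcases h : p.2 e <;> simp [h, h1]⟩)

theorem eq_of_map_filter {c c' : E → Bool} : ∀ {l l' : List E}, l.map c = l'.map c' →
    (l.filter fun f => c f) = (l'.filter fun f => c' f) →
    (l.filter fun f => !c f) = (l'.filter fun f => !c' f) → l = l'
  | [], [], _, _, _ => rfl
  | [], b :: l', h, _, _ => by simp at h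
  | a :: l, [], h, _, _ => by simp at h
  | a :: l, b :: l', h, h1, h2 => by
    rw [List.map_cons, List.map_cons, List.cons.injEq] at h
    rcases hc : c a with _ | _
    · have hc' : c' b = false := by rw [← h.1, hc]
      simp only [List.filter_cons, hc, hc', Bool.not_false, if_true, if_false,
        Bool.false_eq_true] at h1 h2
      rw [List.cons.injEq] at h2
      rw [h2.1, eq_of_map_filter h.2 h1 h2.2]
    · have hc' : c' b = true := by rw [← h.1, hc]
      simp only [List.filter_cons, hc, hc', Bool.not_true, if_true, if_false,
        Bool.false_eq_true] at h1 h2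
      rw [List.cons.injEq] at h1
      rw [h1.1, eq_of_map_filter h.2 h1.2 h2]

theorem phi_injective : Function.Injective (phi (E := E)) := by
  rintro ⟨π, c⟩ ⟨π', c'⟩ h
  have h1 : π.1.map c = π'.1.map c' := congrArg (fun x => x.1.1) h
  have h2 : (π.1.filter fun f => c f) ++ (π.1.filter fun f => !c f) =
      (π'.1.filter fun f => c' f) ++ (π'.1.filter fun f => !c' f) :=
    congrArg (fun x => x.2.1) h
  have h3 : (π.1.filter fun f => c f).length = (π'.1.filter fun f => c' f).length := by
    have h4 := congrArg (List.countP (fun t : Bool => t)) h1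
    rw [List.countP_map, List.countP_map, List.countP_eq_length_filter,
      List.countP_eq_length_filter] at h4
    exact h4
  obtain ⟨h5, h6⟩ := List.append_inj h2 h3
  have h7 := eq_of_map_filter h1 h5 h6
  have h8 : π = π' := Subtype.ext h7
  subst h8
  congr 1
  funext e
  exact List.map_inj_left.1 h1 e (π.2.2 e)

theorem sum_phi_le (F : List.Vector Bool (Fintype.card E) → Order E → ℝ≥0∞) :
    ∑ p : Order E × (E → Bool), F (phi p).1 (phi p).2 ≤
      ∑ b : List.Vector Bool (Fintype.card E), ∑ o : Order E, F b o := by
  rw [← Fintype.sum_prod_type' (f := F)]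
  rw [← Finset.sum_image (f := fun q : List.Vector Bool (Fintype.card E) × Order E => F q.1 q.2)
    (g := phi) (s := Finset.univ) (fun _ _ _ _ h => phi_injective h)]
  exact Finset.sum_le_sum_of_subset (Finset.subset_univ _)

theorem opt_le_add (M : Matroid E) (w : E → ℝ≥0) (c : E → Bool) :
    opt M w ≤ opt M (mix c 0 w) + opt M (mix (fun e => !c e) 0 w) := by
  refine iSup₂_le fun I hI => ?_
  calc ∑ e ∈ I, (w e : ℝ≥0∞) = ∑ e ∈ I, (mix c 0 w e : ℝ≥0∞) +
        ∑ e ∈ I, (mix (fun e => !c e) 0 w e : ℝ≥0∞) := by
        rw [← Finset.sum_add_distrib]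
        refine Finset.sum_congr rfl fun e _ => ?_
        rcases h : c e <;> simp [mix, h]
    _ ≤ _ := add_le_add (le_iSup₂_of_le I hI le_rfl) (le_iSup₂_of_le I hI le_rfl)

theorem card_mul_opt_le (M : Matroid E) (w : E → ℝ≥0) :
    (Fintype.card (E → Bool) : ℝ≥0∞) * opt M w ≤ 2 * ∑ c : E → Bool, opt M (mix c 0 w) := by
  have hinv : Function.Involutive (fun (c : E → Bool) (e : E) => !c e) := by
    intro c; funext e; simp
  have h1 : ∑ c : E → Bool, opt M (mix (fun e => !c e) 0 w) =
      ∑ c : E → Bool, opt M (mix c 0 w) :=
    Equiv.sum_comp hinv.toPerm (fun c : E → Bool => opt M (mix c 0 w))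
  calc (Fintype.card (E → Bool) : ℝ≥0∞) * opt M w = ∑ c : E → Bool, opt M w := by
        rw [Finset.sum_const, Finset.card_univ, nsmul_eq_mul]
    _ ≤ ∑ c : E → Bool, (opt M (mix c 0 w) + opt M (mix (fun e => !c e) 0 w)) :=
        Finset.sum_le_sum fun c _ => opt_le_add M w c
    _ = 2 * ∑ c : E → Bool, opt M (mix c 0 w) := by
        rw [Finset.sum_add_distrib, h1, two_mul]

/-- The gain of the random-order rule is at least that of the virtual rule. -/
theorem gain_le (M : Matroid E) (r : E → Bool) (w : E → ℝ≥0) (p : Order E × (E → Bool)) :
    ∑ e ∈ accepted (acc M (fun f => r f = true) (mix p.2 w 0)) (history (mix p.2 0 w) p.1),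
      (mix p.2 0 w e : ℝ≥0∞) ≤
    ∑ e ∈ accepted (srule M r (phi p).1.1) (history w (phi p).2), (w e : ℝ≥0∞) := by
  obtain ⟨π, c⟩ := p
  set A := accepted (acc M (fun f => r f = true) (mix c w 0)) (history (mix c 0 w) π) with hA
  calc ∑ e ∈ A, (mix c 0 w e : ℝ≥0∞) = ∑ e ∈ A.filter (fun e => c e = false),
        (mix c 0 w e : ℝ≥0∞) := by
        rw [Finset.sum_filter]
        refine Finset.sum_congr rfl fun e _ => ?_
        rcases h : c e <;> simp [mix, h]
    _ = ∑ e ∈ A.filter (fun e => c e = false), (w e : ℝ≥0∞) := by
        refine Finset.sum_congr rfl fun e he => ?_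
        simp [mix, (Finset.mem_filter.1 he).2]
    _ ≤ _ := by
        refine Finset.sum_le_sum_of_subset fun e he => ?_
        obtain ⟨h1, h2⟩ := Finset.mem_filter.1 he
        exact mem_accepted_srule M r w c π.2.1 π.2.2 h2 h1

end Sec

open Sec in
/-- **The random-order corollary.** If the one-sample rule gains a quarter of the optimum against
every fixed order, in the coin model, then there is a rule for the random-order (secretary) problem
which gains one eighth of the optimum. -/
theorem secretary {E : Type*} [Fintype E] {M : Matroid E} (hM : M.E = univ)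
    (hcore : ∀ (x y : E → ℝ≥0) (o : (E → Bool) → Order E),
      (1 / 4 : ℝ≥0∞) * Fintype.card (E → Bool) * ∑ c : E → Bool, opt M (mix c y x) ≤
        ∑ r : E → Bool, ∑ c : E → Bool,
          ∑ e ∈ accepted (acc M (fun f => r f = true) (mix c x y)) (history (mix c y x) (o r)),
            (mix c y x e : ℝ≥0∞)) :
    ∃ (Seed : Type) (_ : Fintype Seed) (_ : Nonempty Seed)
      (accept : Seed → List (E × ℝ≥0) → E × ℝ≥0 → Prop),
      (∀ (r : Seed) (h : List (E × ℝ≥0)), (h.map Prod.fst).Nodup →
        M.Indep (accepted (accept r) h : Set E)) ∧
      ∀ w : E → ℝ≥0,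
        (1 / 8 : ℝ≥0∞) * Fintype.card Seed * Fintype.card (Order E) * opt M w ≤
          ∑ r : Seed, ∑ o : Order E, ∑ e ∈ accepted (accept r) (history w o), (w e : ℝ≥0∞) := by
  refine ⟨(Fin (Fintype.card E) → Bool) × List.Vector Bool (Fintype.card E), inferInstance,
    ⟨(fun _ => true, List.Vector.replicate _ true)⟩,
    fun s => srule M (fun e => s.1 (Fintype.equivFin E e)) s.2.1,
    fun s h hnd => indep_srule hM _ _ h hnd, fun w => ?_⟩
  have hcard : Fintype.card ((Fin (Fintype.card E) → Bool) × List.Vector Bool (Fintype.card E)) =
      Fintype.card (E → Bool) * Fintype.card (E → Bool) := by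
    rw [Fintype.card_prod, card_vector, Fintype.card_fun, Fintype.card_fun, Fintype.card_fin]
  set N : ℝ≥0∞ := (Fintype.card (E → Bool) : ℝ≥0∞) with hN
  have h1 : ∀ π : Order E, (1 / 8 : ℝ≥0∞) * N * (N * opt M w) ≤
      ∑ r : E → Bool, ∑ c : E → Bool,
        ∑ e ∈ accepted (acc M (fun f => r f = true) (mix c w 0)) (history (mix c 0 w) π),
          (mix c 0 w e : ℝ≥0∞) := by
    intro π
    calc (1 / 8 : ℝ≥0∞) * N * (N * opt M w) ≤
        (1 / 8 : ℝ≥0∞) * N * (2 * ∑ c : E → Bool, opt M (mix c 0 w)) := by
          exact mul_le_mul_right (card_mul_opt_le M w) _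
      _ = (1 / 4 : ℝ≥0∞) * N * ∑ c : E → Bool, opt M (mix c 0 w) := by
          have h2 : (1 / 8 : ℝ≥0∞) * 2 = 1 / 4 := by
            rw [one_div, one_div, show (8 : ℝ≥0∞) = 4 * 2 by norm_num,
              ENNReal.mul_inv (by norm_num) (by norm_num), mul_assoc,
              ENNReal.inv_mul_cancel (by norm_num) (by norm_num), mul_one]
          rw [← h2]; ring
      _ ≤ _ := hcore w 0 fun _ => π
  set F : (E → Bool) → List.Vector Bool (Fintype.card E) → Order E → ℝ≥0∞ := fun r b o =>
    ∑ e ∈ accepted (srule M r b.1) (history w o), (w e : ℝ≥0∞) with hF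
  have h2 : ∑ s : (Fin (Fintype.card E) → Bool) × List.Vector Bool (Fintype.card E),
      ∑ o : Order E, F (fun e => s.1 (Fintype.equivFin E e)) s.2 o =
      ∑ r : E → Bool, ∑ b, ∑ o, F r b o := by
    rw [Fintype.sum_prod_type]
    exact Equiv.sum_comp (Equiv.arrowCongr (Fintype.equivFin E).symm (Equiv.refl Bool))
      (fun r : E → Bool => ∑ b, ∑ o, F r b o)
  calc (1 / 8 : ℝ≥0∞) * Fintype.card ((Fin (Fintype.card E) → Bool) ×
        List.Vector Bool (Fintype.card E)) * Fintype.card (Order E) * opt M w =
        ∑ π : Order E, (1 / 8 : ℝ≥0∞) * N * (N * opt M w) := by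
        rw [Finset.sum_const, Finset.card_univ, nsmul_eq_mul, hcard, Nat.cast_mul]
        ring
    _ ≤ ∑ π : Order E, ∑ r : E → Bool, ∑ c : E → Bool,
        ∑ e ∈ accepted (acc M (fun f => r f = true) (mix c w 0)) (history (mix c 0 w) π),
          (mix c 0 w e : ℝ≥0∞) := Finset.sum_le_sum fun π _ => h1 π
    _ = ∑ r : E → Bool, ∑ p : Order E × (E → Bool),
        ∑ e ∈ accepted (acc M (fun f => r f = true) (mix p.2 w 0)) (history (mix p.2 0 w) p.1),
          (mix p.2 0 w e : ℝ≥0∞) := by
        rw [Finset.sum_comm]
        refine Finset.sum_congr rfl fun r _ => ?_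
        rw [Fintype.sum_prod_type]
    _ ≤ ∑ r : E → Bool, ∑ p : Order E × (E → Bool), F r (phi p).1 (phi p).2 :=
        Finset.sum_le_sum fun r _ => Finset.sum_le_sum fun p _ => gain_le M r w p
    _ ≤ ∑ r : E → Bool, ∑ b, ∑ o, F r b o :=
        Finset.sum_le_sum fun r _ => sum_phi_le (F r)
    _ = _ := h2.symm

end Vale.Agent.P331.Osel
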