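import Vale.Agent.P331.Osel.Core
import Vale.Agent.P331.Osel.Sec

/-!
# The random-order (secretary) theorem
-/

namespace Vale.Agent.P331.Osel

open Set Vale.Agent.P331
open scoped NNReal ENNReal Classical

set_option linter.all false

open Sec in
/-- Every finite matroid has a rule for the random-order (secretary) problem with fixed unknown
weights which gains at least one eighth of the optimum. -/
theorem secretary_main {E : Type*} [Fintype E] {M : Matroid E} (hM : M.E = univ) :
    ∃ (Seed : Type) (_ : Fintype Seed) (_ : Nonempty Seed)
      (accept : Seed → List (E × ℝ≥0) → E × ℝ≥0 → Prop),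
      (∀ (r : Seed) (h : List (E × ℝ≥0)), (h.map Prod.fst).Nodup →
        M.Indep (accepted (accept r) h : Set E)) ∧
      ∀ w : E → ℝ≥0,
        (1 / 8 : ℝ≥0∞) * Fintype.card Seed * Fintype.card (Order E) * opt M w ≤
          ∑ r : Seed, ∑ o : Order E, ∑ e ∈ accepted (accept r) (history w o), (w e : ℝ≥0∞) := by
  refine secretary hM fun x y o => ?_
  rw [one_div]
  exact core hM x y o

end Vale.Agent.P331.Osel
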