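import Vale.Agent.P331.Osel.SecDefs
import Vale.Agent.P331.Osel.SecMain

/-!
# The matroid secretary problem: from the explicit form to `SecretaryRule`
-/

namespace Vale.Agent.P331

open scoped ENNReal NNReal Classical

variable {E : Type*}

/-- The explicit form of the secretary theorem gives a competitive `SecretaryRule`. -/
theorem secretary_of_explicit [Fintype E] (fO : Fintype (Order E)) {M : Matroid E} {c : ℝ≥0∞}
    (H : ∃ (Seed : Type) (fS : Fintype Seed) (_ : Nonempty Seed)
      (accept : Seed → List (E × ℝ≥0) → E × ℝ≥0 → Prop),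
      (∀ (r : Seed) (h : List (E × ℝ≥0)), (h.map Prod.fst).Nodup →
        M.Indep (accepted (accept r) h : Set E)) ∧
      ∀ w : E → ℝ≥0, c * (@Fintype.card Seed fS : ℝ≥0∞) *
          (@Fintype.card (Order E) fO : ℝ≥0∞) * opt M w ≤
        ∑ r : Seed, (@Finset.univ (Order E) fO).sum fun o =>
          ∑ e ∈ accepted (accept r) (history w o), (w e : ℝ≥0∞)) :
    ∃ R : SecretaryRule M, R.IsCompetitive c := by
  have hfO : fO = Order.instFintype := Subsingleton.elim _ _
  subst hfO
  obtain ⟨Seed, fS, nS, accept, hf, hw⟩ := H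
  refine ⟨{ Seed := Seed, accept := accept, feasible := hf }, fun w => ?_⟩
  have h1 := hw w
  have hS : (Fintype.card Seed : ℝ≥0∞) ≠ 0 := by
    exact_mod_cast Fintype.card_ne_zero
  have hO : (@Fintype.card (Order E) Order.instFintype : ℝ≥0∞) ≠ 0 := by
    have : Nonempty (Order E) := by
      refine ⟨⟨(Finset.univ : Finset E).toList, Finset.nodup_toList _, fun e => ?_⟩⟩
      exact Finset.mem_toList.2 (Finset.mem_univ e)
    exact Nat.cast_ne_zero.2 (@Fintype.card_ne_zero (Order E) Order.instFintype this)
  rw [ENNReal.le_div_iff_mul_le (Or.inl (mul_ne_zero hS hO))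
    (Or.inl (ENNReal.mul_ne_top (ENNReal.natCast_ne_top _) (ENNReal.natCast_ne_top _)))]
  refine le_trans (le_of_eq ?_) h1
  ring

/-- The matroid secretary theorem: every finite matroid has a `1/8`-competitive secretary rule. -/
theorem exists_secretaryRule {E : Type} [Fintype E] {M : Matroid E} (hM : M.E = Set.univ) :
    ∃ R : SecretaryRule M, R.IsCompetitive (1 / 8) := by
  obtain ⟨Seed, fS, nS, accept, hf, hw⟩ := Osel.secretary_main hM
  exact secretary_of_explicit _ ⟨Seed, fS, nS, accept, hf, hw⟩

end Vale.Agent.P331
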